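import Mathlib

/-!
P217, generic fibre: Hazewinkel's recursion for the coefficients of the logarithm of the universal
deformation, in both forms, and its naturality.
-/

namespace Vale.Agent.P217.Generic

open Finset

variable {R : Type*} [CommRing R]

/-- Logarithm coefficients: `lg 0 = 1`, `p lg (M+1) = ∑_{i ≤ M} U_i^(p^(M-i)) lg (M-i)`
(`U i` is Hazewinkel's `u_(i+1)`, `π` is an inverse of `p`). -/
def lg {d : ℕ} (p : ℕ) (π : R) (U : Fin (d + 1) → R) : ℕ → R
  | 0 => 1
  | M + 1 => π * ∑ i : Fin (d + 1),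
      if (i : ℕ) ≤ M then U i ^ p ^ (M - (i : ℕ)) * lg p π U (M - (i : ℕ)) else 0
  termination_by m => m
  decreasing_by omega

variable {d : ℕ} {p : ℕ}

lemma lg_zero (π : R) (U : Fin (d + 1) → R) : lg p π U 0 = 1 := by
  rw [lg]

lemma lg_succ (π : R) (U : Fin (d + 1) → R) (M : ℕ) :
    lg p π U (M + 1) = π * ∑ i : Fin (d + 1),
      if (i : ℕ) ≤ M then U i ^ p ^ (M - (i : ℕ)) * lg p π U (M - (i : ℕ)) else 0 := by
  rw [lg]

lemma map_lg {S : Type*} [CommRing S] (φ : R →+* S) (π : R) (U : Fin (d + 1) → R) (M : ℕ) :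
    φ (lg p π U M) = lg p (φ π) (φ ∘ U) M := by
  induction M using Nat.strong_induction_on with
  | _ M ih =>
    cases M with
    | zero => simp [lg_zero]
    | succ M =>
      rw [lg_succ, lg_succ, map_mul, map_sum]
      congr 1
      refine Finset.sum_congr rfl fun i _ => ?_
      split_ifs with h
      · rw [map_mul, map_pow, ih _ (by omega)]; rfl
      · exact map_zero φ

/-- The second recursion `p lg_U (M+1) = ∑ U_i lg_{U^(p^(i+1))} (M-i)`. -/
lemma lg_succ' (π : R) (U : Fin (d + 1) → R) (M : ℕ) :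
    lg p π U (M + 1) = π * ∑ i : Fin (d + 1),
      if (i : ℕ) ≤ M then U i * lg p π (fun j => U j ^ p ^ ((i : ℕ) + 1)) (M - (i : ℕ))
      else 0 := by
  induction M using Nat.strong_induction_on with
  | _ M ih =>
    have h1 : ∀ i : Fin (d + 1),
        (if (i : ℕ) ≤ M then U i ^ p ^ (M - (i : ℕ)) * lg p π U (M - (i : ℕ)) else 0) =
        (if (i : ℕ) = M then U i else 0) + ∑ j : Fin (d + 1),
          if (i : ℕ) + (j : ℕ) + 1 ≤ M then π * (U i ^ p ^ (M - (i : ℕ)) * (U j *
            lg p π (fun k => U k ^ p ^ ((j : ℕ) + 1)) (M - (i : ℕ) - 1 - (j : ℕ)))) else 0 := by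
      intro i
      rcases lt_trichotomy (i : ℕ) M with h | h | h
      · rw [if_pos h.le, if_neg h.ne, zero_add]
        obtain ⟨N, hN⟩ : ∃ N, M - (i : ℕ) = N + 1 := ⟨M - (i : ℕ) - 1, by omega⟩
        rw [hN, ih N (by omega), Finset.mul_sum, Finset.mul_sum]
        refine Finset.sum_congr rfl fun j _ => ?_
        by_cases hj : (j : ℕ) ≤ N
        · rw [if_pos hj, if_pos (by omega), Nat.add_sub_cancel]; ring
        · rw [if_neg hj, if_neg (by omega), mul_zero, mul_zero]
      · rw [if_pos h.le, if_pos h, h, Nat.sub_self, pow_zero, pow_one, lg_zero, mul_one,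
          Finset.sum_eq_zero (fun j _ => if_neg (by omega)), add_zero]
      · rw [if_neg (by omega), if_neg (by omega),
          Finset.sum_eq_zero (fun j _ => if_neg (by omega)), add_zero]
    have h2 : ∀ j : Fin (d + 1),
        (if (j : ℕ) ≤ M then U j * lg p π (fun k => U k ^ p ^ ((j : ℕ) + 1)) (M - (j : ℕ))
          else 0) =
        (if (j : ℕ) = M then U j else 0) + ∑ i : Fin (d + 1),
          if (i : ℕ) + (j : ℕ) + 1 ≤ M then π * (U i ^ p ^ (M - (i : ℕ)) * (U j *
            lg p π (fun k => U k ^ p ^ ((j : ℕ) + 1)) (M - (i : ℕ) - 1 - (j : ℕ)))) else 0 := by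
      intro j
      rcases lt_trichotomy (j : ℕ) M with h | h | h
      · rw [if_pos h.le, if_neg h.ne, zero_add]
        obtain ⟨N, hN⟩ : ∃ N, M - (j : ℕ) = N + 1 := ⟨M - (j : ℕ) - 1, by omega⟩
        rw [hN, lg_succ, Finset.mul_sum, Finset.mul_sum]
        refine Finset.sum_congr rfl fun i _ => ?_
        by_cases hi : (i : ℕ) ≤ N
        · rw [if_pos hi, if_pos (by omega), ← pow_mul, ← pow_add,
            show (j : ℕ) + 1 + (N - (i : ℕ)) = M - (i : ℕ) by omega,
            show M - (i : ℕ) - 1 - (j : ℕ) = N - (i : ℕ) by omega]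
          ring
        · rw [if_neg hi, if_neg (by omega), mul_zero, mul_zero]
      · rw [if_pos h.le, if_pos h, h, Nat.sub_self, lg_zero, mul_one,
          Finset.sum_eq_zero (fun i _ => if_neg (by omega)), add_zero]
      · rw [if_neg (by omega), if_neg (by omega),
          Finset.sum_eq_zero (fun i _ => if_neg (by omega)), add_zero]
    rw [lg_succ, Finset.sum_congr rfl (fun i _ => h1 i), Finset.sum_congr rfl (fun j _ => h2 j),
      Finset.sum_add_distrib, Finset.sum_add_distrib, Finset.sum_comm]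

end Vale.Agent.P217.Generic
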