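import Mathlib
import Vale.Agent.P217.Generic.Log

/-!
P217, generic fibre: growth and convergence of sequences satisfying Hazewinkel's recursion up to
small errors, and the calculus of the maps `v ↦ lim_j p^j X (n j + i)`.
-/

namespace Vale.Agent.P217.Generic

open Filter Topology Finset

variable {K : Type*} [NormedField K] [IsUltrametricDist K]

/-- `∀ i, p^j X (n j + i) → v i`, `n = d + 1`. -/
def Per (p : ℕ) {d : ℕ} (X : ℕ → K) (v : Fin (d + 1) → K) : Prop :=
  ∀ i : Fin (d + 1),
    Tendsto (fun j => (p : K) ^ j * X ((d + 1) * j + (i : ℕ))) atTop (𝓝 (v i))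

/-- Shift of a sequence. -/
def sh (X : ℕ → K) : ℕ → K
  | 0 => 0
  | M + 1 => X M

/-- The effect of `sh` on periods. -/
def S (p : ℕ) {d : ℕ} (v : Fin (d + 1) → K) : Fin (d + 1) → K :=
  Fin.cons ((p : K) * v (Fin.last d)) (fun i => v i.castSucc)

variable {p : ℕ} {d : ℕ}

omit [IsUltrametricDist K] in
lemma sh_iterate (X : ℕ → K) (k M : ℕ) :
    sh^[k] X M = if k ≤ M then X (M - k) else 0 := by
  induction k generalizing M with
  | zero => simp
  | succ k ih =>
    rw [Function.iterate_succ_apply']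
    cases M with
    | zero => rfl
    | succ M =>
      show sh^[k] X M = _
      rw [ih]
      simp only [Nat.add_sub_add_right, add_le_add_iff_right]

namespace Per

variable {X Y : ℕ → K} {v w : Fin (d + 1) → K}

lemma unique (h : Per p X v) (h' : Per p X w) : v = w :=
  funext fun i => tendsto_nhds_unique (h i) (h' i)

lemma add (h : Per p X v) (h' : Per p Y w) : Per p (X + Y) (v + w) := fun i => by
  simpa [mul_add] using (h i).add (h' i)

lemma neg (h : Per p X v) : Per p (-X) (-v) := fun i => by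
  simpa [mul_neg] using (h i).neg

lemma sub (h : Per p X v) (h' : Per p Y w) : Per p (X - Y) (v - w) := by
  simpa [sub_eq_add_neg] using h.add h'.neg

lemma smul (c : K) (h : Per p X v) : Per p (c • X) (c • v) := fun i => by
  simpa [mul_left_comm] using (h i).const_mul c

lemma zero : Per p (0 : ℕ → K) (0 : Fin (d + 1) → K) := fun i => by
  simpa using tendsto_const_nhds

lemma sum {ι : Type*} {s : Finset ι} {X : ι → ℕ → K} {v : ι → Fin (d + 1) → K}
    (h : ∀ a ∈ s, Per p (X a) (v a)) : Per p (∑ a ∈ s, X a) (∑ a ∈ s, v a) := fun i => by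
  simp only [Finset.sum_apply, Finset.mul_sum]
  exact tendsto_finsetSum _ fun a ha => h a ha i

lemma congr' (h : Per p X v) (hXY : ∀ᶠ M in atTop, X M = Y M) : Per p Y v := fun i => by
  refine (h i).congr' ?_
  obtain ⟨N, hN⟩ := eventually_atTop.1 hXY
  filter_upwards [eventually_ge_atTop N] with j hj
  rw [hN]
  calc N ≤ j := hj
    _ ≤ (d + 1) * j := Nat.le_mul_of_pos_left _ d.succ_pos
    _ ≤ _ := Nat.le_add_right _ _

lemma shift (h : Per p X v) : Per p (sh X) (S p v) := fun i => by
  refine Fin.cases ?_ ?_ i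
  · rw [← tendsto_add_atTop_iff_nat 1]
    simp only [S, Fin.cons_zero, Fin.val_zero, add_zero]
    refine ((h (Fin.last d)).const_mul (p : K)).congr' (Eventually.of_forall fun j => ?_)
    dsimp only
    rw [show (d + 1) * (j + 1) = (d + 1) * j + d + 1 by ring]
    show _ = _ * X ((d + 1) * j + d)
    rw [Fin.val_last, pow_succ]; ring
  · intro i
    simp only [S, Fin.cons_succ, Fin.val_succ]
    exact h i.castSucc

lemma shift_iterate (h : Per p X v) (k : ℕ) : Per p (sh^[k] X) ((S p)^[k] v) := by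
  induction k with
  | zero => simpa using h
  | succ k ih => rw [Function.iterate_succ_apply', Function.iterate_succ_apply']; exact ih.shift

lemma norm_le (h : Per p X v) {B : ℝ}
    (hB : ∀ M, ‖(p : K)‖ ^ (M / (d + 1)) * ‖X M‖ ≤ B) : ‖v‖ ≤ B := by
  have h0 : 0 ≤ B := le_trans (by positivity) (hB 0)
  refine (pi_norm_le_iff_of_nonneg h0).2 fun i => ?_
  refine le_of_tendsto' (h i).norm fun j => ?_
  have := hB ((d + 1) * j + (i : ℕ))
  rwa [Nat.mul_add_div (Nat.succ_pos d), Nat.div_eq_of_lt i.2, add_zero, ← norm_pow,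
    ← norm_mul] at this

end Per

/-- Growth: if `p X (M+1)` is bounded by the natural weights times the previous values, then
`p^(M/n) X M` is bounded by `C` times the bound on the data. -/
lemma exists_growth (hp : (p : K) ≠ 0) (hp1 : ‖(p : K)‖ < 1) (hp2 : 2 ≤ p) {r : ℝ} (hr0 : 0 ≤ r)
    (hr : r < 1) : ∃ C : ℝ, 1 ≤ C ∧ ∀ (A : ℝ) (X : ℕ → K), 0 ≤ A → ‖X 0‖ ≤ A →
      (∀ (M : ℕ) (B : ℝ), A * ‖(p : K)‖ ≤ ‖(p : K)‖ ^ ((M + 1) / (d + 1)) * B →
        (∀ i : Fin (d + 1), (i : ℕ) ≤ M →
          (if i = Fin.last d then 1 else r ^ p ^ (M - (i : ℕ))) * ‖X (M - (i : ℕ))‖ ≤ B) →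
        ‖(p : K) * X (M + 1)‖ ≤ B) →
      ∀ M, ‖(p : K)‖ ^ (M / (d + 1)) * ‖X M‖ ≤ C * A := by
  set q := ‖(p : K)‖ with hq
  have hq0 : 0 < q := norm_pos_iff.2 hp
  obtain ⟨L, hL⟩ := exists_pow_lt_of_lt_one hq0 hr
  set M0 := L + d with hM0
  refine ⟨(q⁻¹) ^ M0, one_le_pow₀ ((one_le_inv₀ hq0).2 hp1.le), ?_⟩
  intro A X hA hX0 hstep
  have key : ∀ M, q ^ (M / (d + 1)) * ‖X M‖ ≤ (q⁻¹) ^ (min M M0) * A := by
    intro M
    induction M using Nat.strong_induction_on with
    | _ M ih =>
      cases M with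
      | zero => simpa using hX0
      | succ M =>
        set e := (q⁻¹) ^ (min (M + 1) M0) * A with he
        have he0 : 0 ≤ e := by positivity
        have hAe : A ≤ e := le_mul_of_one_le_left hA (one_le_pow₀ ((one_le_inv₀ hq0).2 hp1.le))
        suffices hB : ‖(p : K) * X (M + 1)‖ ≤ q * e / q ^ ((M + 1) / (d + 1)) by
          rw [norm_mul, ← hq] at hB
          rw [le_div_iff₀ (pow_pos hq0 _)] at hB
          nlinarith
        refine hstep M _ ?_ fun i hi => ?_
        · rw [mul_div_cancel₀ _ (pow_ne_zero _ hq0.ne'), mul_comm A q]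
          exact mul_le_mul_of_nonneg_left hAe hq0.le
        rw [le_div_iff₀ (pow_pos hq0 _)]
        have hY := ih (M - (i : ℕ)) (by omega)
        have hmono : (q⁻¹) ^ (min (M - (i : ℕ)) M0) * A ≤ e :=
          mul_le_mul_of_nonneg_right
            (pow_le_pow_right₀ ((one_le_inv₀ hq0).2 hp1.le) (by omega)) hA
        by_cases hid : i = Fin.last d
        · subst hid
          rw [if_pos rfl, one_mul]
          simp only [Fin.val_last] at hi hY hmono ⊢
          rw [show (M + 1) / (d + 1) = (M - d) / (d + 1) + 1 by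
            rw [show M + 1 = (M - d) + (d + 1) by omega, Nat.add_div_right _ d.succ_pos],
            pow_succ]
          calc ‖X (M - d)‖ * (q ^ ((M - d) / (d + 1)) * q)
              = q * (q ^ ((M - d) / (d + 1)) * ‖X (M - d)‖) := by ring
            _ ≤ q * e := mul_le_mul_of_nonneg_left (hY.trans hmono) hq0.le
        · rw [if_neg hid]
          have hi' : (i : ℕ) < d := Fin.val_lt_last hid
          have hexp : q ^ ((M + 1) / (d + 1)) ≤ q ^ ((M - (i : ℕ)) / (d + 1)) :=
            pow_le_pow_of_le_one hq0.le hp1.le (Nat.div_le_div_right (by omega))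
          have hr1 : r ^ p ^ (M - (i : ℕ)) ≤ 1 := pow_le_one₀ hr0 hr.le
          have h1 : r ^ p ^ (M - (i : ℕ)) * ‖X (M - (i : ℕ))‖ * q ^ ((M + 1) / (d + 1)) ≤
              r ^ p ^ (M - (i : ℕ)) * ((q⁻¹) ^ (min (M - (i : ℕ)) M0) * A) := by
            rw [mul_assoc]
            refine mul_le_mul_of_nonneg_left (le_trans ?_ hY) (pow_nonneg hr0 _)
            rw [mul_comm]
            exact mul_le_mul_of_nonneg_right hexp (norm_nonneg _)
          refine h1.trans ?_
          by_cases hM : M + 1 ≤ M0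
          · calc r ^ p ^ (M - (i : ℕ)) * ((q⁻¹) ^ (min (M - (i : ℕ)) M0) * A)
                ≤ 1 * ((q⁻¹) ^ M * A) := by
                  refine mul_le_mul hr1 (mul_le_mul_of_nonneg_right (pow_le_pow_right₀
                    ((one_le_inv₀ hq0).2 hp1.le) (by omega)) hA) (by positivity) zero_le_one
              _ = q * e := by
                  rw [he, min_eq_left hM, pow_succ]
                  field_simp
          · refine mul_le_mul ?_ hmono (by positivity) hq0.le
            refine le_trans (pow_le_pow_of_le_one hr0 hr.le ?_) hL.le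
            exact le_trans (by omega) (Nat.lt_pow_self (n := M - (i : ℕ)) hp2).le
  intro M
  refine (key M).trans (mul_le_mul_of_nonneg_right ?_ hA)
  exact pow_le_pow_right₀ ((one_le_inv₀ hq0).2 hp1.le) (min_le_right _ _)

/-- Convergence: small defect of `p X (M+1) - X (M-d)` gives periods. -/
lemma exists_per [CompleteSpace K] (hp : (p : K) ≠ 0) (X : ℕ → K) {ρ C : ℝ}
    (hρ0 : 0 ≤ ρ) (hρ : ρ < 1)
    (h : ∀ M, d ≤ M →
      ‖(p : K)‖ ^ (M / (d + 1)) * ‖(p : K) * X (M + 1) - X (M - d)‖ ≤ C * ρ ^ (M - d)) :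
    ∃ v : Fin (d + 1) → K, Per p X v := by
  have key : ∀ i : Fin (d + 1), ∃ c, Tendsto
      (fun j => (p : K) ^ j * X ((d + 1) * j + (i : ℕ))) atTop (𝓝 c) := by
    intro i
    refine cauchySeq_tendsto_of_complete
      (NonarchimedeanAddGroup.cauchySeq_of_tendsto_sub_nhds_zero ?_)
    refine squeeze_zero_norm (a := fun j => ‖(p : K)‖⁻¹ * (C * ρ ^ j)) (fun j => ?_) ?_
    · have hCp : (0 : ℝ) < ‖(p : K)‖ := norm_pos_iff.2 hp
      set M := (d + 1) * j + d + (i : ℕ) with hM
      have h' := h M (by omega)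
      rw [show M + 1 = (d + 1) * (j + 1) + (i : ℕ) by rw [hM]; ring,
        show M - d = (d + 1) * j + (i : ℕ) by omega] at h'
      have hdiv : M / (d + 1) ≤ j + 1 := by
        rw [Nat.div_le_iff_le_mul_add_pred d.succ_pos]
        have := i.2
        simp only [hM, Nat.succ_eq_add_one, Nat.add_sub_cancel]
        nlinarith
      calc ‖(p : K) ^ (j + 1) * X ((d + 1) * (j + 1) + (i : ℕ)) -
            (p : K) ^ j * X ((d + 1) * j + (i : ℕ))‖
          = ‖(p : K)‖ ^ j * ‖(p : K) * X ((d + 1) * (j + 1) + (i : ℕ)) -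
              X ((d + 1) * j + (i : ℕ))‖ := by
            rw [← norm_pow, ← norm_mul]; congr 1; ring
        _ = ‖(p : K)‖⁻¹ * (‖(p : K)‖ ^ (j + 1) * ‖(p : K) * X ((d + 1) * (j + 1) + (i : ℕ)) -
              X ((d + 1) * j + (i : ℕ))‖) := by rw [pow_succ]; field_simp
        _ ≤ _ := by
            refine mul_le_mul_of_nonneg_left ?_ (by positivity)
            by_cases hq1 : ‖(p : K)‖ ≤ 1
            · have hC : 0 ≤ C * ρ ^ ((d + 1) * j + (i : ℕ)) := le_trans (by positivity) h'
              have hC0 : 0 ≤ C ∨ ρ ^ ((d + 1) * j + (i : ℕ)) = 0 := by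
                rcases (pow_nonneg hρ0 ((d + 1) * j + (i : ℕ))).lt_or_eq with h0 | h0
                · exact Or.inl ((mul_nonneg_iff_of_pos_right h0).1 hC)
                · exact Or.inr h0.symm
              refine le_trans (mul_le_mul_of_nonneg_right
                (pow_le_pow_of_le_one (norm_nonneg _) hq1 hdiv) (norm_nonneg _)) (h'.trans ?_)
              rcases hC0 with hC0 | hC0
              · refine mul_le_mul_of_nonneg_left (pow_le_pow_of_le_one hρ0 hρ.le ?_) hC0
                exact le_trans (Nat.le_mul_of_pos_left _ d.succ_pos) (Nat.le_add_right _ _)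
              · rw [hC0, mul_zero]
                have hρz := pow_eq_zero_iff'.1 hC0
                by_cases hj : j = 0
                · subst hj
                  have h0 := h d le_rfl
                  simp only [Nat.sub_self, pow_zero, mul_one, mul_one] at h0 ⊢
                  exact le_trans (by positivity) h0
                · rw [hρz.1, zero_pow hj, mul_zero]
            · exact absurd (IsUltrametricDist.norm_natCast_le_one K p) hq1
    · simpa using ((tendsto_pow_atTop_nhds_zero_of_lt_one hρ0 hρ).const_mul C).const_mul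
        ‖(p : K)‖⁻¹
  choose c hc using key
  exact ⟨c, hc⟩

lemma norm_add_pow_sub_pow_le {a e : K} (ha : ‖a‖ ≤ 1) (he : ‖e‖ ≤ 1) (N : ℕ) :
    ‖(a + e) ^ N - a ^ N‖ ≤ ‖e‖ := by
  induction N with
  | zero => simp
  | succ N ih =>
    rw [show (a + e) ^ (N + 1) - a ^ (N + 1) = (a + e) * ((a + e) ^ N - a ^ N) + e * a ^ N by ring]
    refine (IsUltrametricDist.norm_add_le_max _ _).trans (max_le ?_ ?_)
    · rw [norm_mul]
      exact (mul_le_of_le_one_left (norm_nonneg _)
        ((IsUltrametricDist.norm_add_le_max _ _).trans (max_le ha he))).trans ih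
    · rw [norm_mul, norm_pow]
      exact mul_le_of_le_one_right (norm_nonneg _) (pow_le_one₀ (norm_nonneg _) ha)

lemma norm_add_pow_sub_sub_le {a e : K} (ha : ‖a‖ ≤ 1) (he : ‖e‖ ≤ 1) (N : ℕ) :
    ‖(a + e) ^ N - a ^ N - (N : K) * a ^ (N - 1) * e‖ ≤ ‖e‖ ^ 2 := by
  induction N with
  | zero => simp
  | succ N ih =>
    have h : (a + e) ^ (N + 1) - a ^ (N + 1) - ((N + 1 : ℕ) : K) * a ^ (N + 1 - 1) * e =
        (a + e) * ((a + e) ^ N - a ^ N - (N : K) * a ^ (N - 1) * e) +
          (N : K) * a ^ (N - 1) * e ^ 2 := by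
      cases N with
      | zero => simp
      | succ N => simp only [Nat.cast_succ, Nat.add_sub_cancel]; ring
    rw [h]
    refine (IsUltrametricDist.norm_add_le_max _ _).trans (max_le ?_ ?_)
    · rw [norm_mul]
      exact (mul_le_of_le_one_left (norm_nonneg _)
        ((IsUltrametricDist.norm_add_le_max _ _).trans (max_le ha he))).trans ih
    · rw [norm_mul, norm_mul, norm_pow, norm_pow]
      refine mul_le_of_le_one_left (by positivity) ?_
      exact mul_le_one₀ (IsUltrametricDist.norm_natCast_le_one K N) (by positivity)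
        (pow_le_one₀ (norm_nonneg _) ha)

/-- `x^(p^N) - y^(p^N) → 0` for `x ≡ y` modulo the maximal ideal. -/
lemma tendsto_pow_sub_pow (hp1 : ‖(p : K)‖ < 1) {x y : K} (hy : ‖y‖ ≤ 1) (h : ‖x - y‖ < 1) :
    Tendsto (fun N => x ^ p ^ N - y ^ p ^ N) atTop (𝓝 0) := by
  have hstep : ∀ a b : K, ‖b‖ ≤ 1 → ‖a - b‖ ≤ 1 →
      ‖a ^ p - b ^ p‖ ≤ max ‖(p : K)‖ ‖a - b‖ * ‖a - b‖ := by
    intro a b hb hab
    have h2 := norm_add_pow_sub_sub_le hb hab p
    rw [add_sub_cancel] at h2
    rw [show a ^ p - b ^ p = (a ^ p - b ^ p - (p : K) * b ^ (p - 1) * (a - b)) +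
      (p : K) * b ^ (p - 1) * (a - b) by ring]
    refine (IsUltrametricDist.norm_add_le_max _ _).trans (max_le (h2.trans ?_) ?_)
    · rw [sq]; exact mul_le_mul_of_nonneg_right (le_max_right _ _) (norm_nonneg _)
    · rw [norm_mul, norm_mul, norm_pow]
      refine mul_le_mul_of_nonneg_right (le_trans ?_ (le_max_left _ _)) (norm_nonneg _)
      exact mul_le_of_le_one_right (norm_nonneg _) (pow_le_one₀ (norm_nonneg _) hb)
  set c := max ‖(p : K)‖ ‖x - y‖
  have hc : c < 1 := max_lt hp1 h
  have hc0 : 0 ≤ c := le_max_of_le_left (norm_nonneg _)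
  have key : ∀ N, ‖x ^ p ^ N - y ^ p ^ N‖ ≤ c ^ (N + 1) := by
    intro N
    induction N with
    | zero => simp [c]
    | succ N ih =>
      have hle : ‖x ^ p ^ N - y ^ p ^ N‖ ≤ c :=
        ih.trans (pow_le_of_le_one hc0 hc.le N.succ_ne_zero)
      rw [pow_succ p N, pow_mul, pow_mul, pow_succ' c (N + 1)]
      refine (hstep _ _ ?_ (hle.trans hc.le)).trans
        (mul_le_mul (max_le (le_max_left _ _) hle) ih (norm_nonneg _) hc0)
      rw [norm_pow]; exact pow_le_one₀ (norm_nonneg _) hy
  exact squeeze_zero_norm key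
    ((tendsto_pow_atTop_nhds_zero_of_lt_one hc0 hc).comp (tendsto_add_atTop_nat 1))

end Vale.Agent.P217.Generic
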