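import Mathlib
import Vale.Agent.P217.Generic.Est

/-!
P217, generic fibre: the periods `w` of the universal deformation at a point of the open polydisc,
their derivative, and second order bounds.
-/

namespace Vale.Agent.P217.Generic

open Filter Topology Finset

variable {K : Type*} [NormedField K] [IsUltrametricDist K] {p d : ℕ}

/-- Extend `(u_1, …, u_(n-1))` by `u_n = 1`. -/
def ext (u : Fin d → K) : Fin (d + 1) → K := Fin.snoc u 1

/-- Extend a tangent vector by `0`. -/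
def ext0 (δ : Fin d → K) : Fin (d + 1) → K := Fin.snoc δ 0

/-- `u^(p^k)`, coordinatewise. -/
def frob (p : ℕ) (u : Fin d → K) (k : ℕ) : Fin d → K := fun i => u i ^ p ^ k

/-- Logarithm coefficients at the point `u`. -/
noncomputable def L (p : ℕ) (u : Fin d → K) : ℕ → K := lg p (p : K)⁻¹ (ext u)

/-- Their derivatives at `u` in direction `δ`. -/
noncomputable def dL (p : ℕ) (u δ : Fin d → K) (M : ℕ) : K :=
  (lg p (TrivSqZeroExt.inl ((p : K)⁻¹) : TrivSqZeroExt K K)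
    (fun i => TrivSqZeroExt.inl (ext u i) + TrivSqZeroExt.inr (ext0 δ i)) M).snd

omit [IsUltrametricDist K] in
lemma ext_last (u : Fin d → K) : ext u (Fin.last d) = 1 := by simp [ext]

omit [IsUltrametricDist K] in
lemma ext0_last (δ : Fin d → K) : ext0 δ (Fin.last d) = 0 := by simp [ext0]

omit [IsUltrametricDist K] in
lemma ext_castSucc (u : Fin d → K) (i : Fin d) : ext u i.castSucc = u i := by simp [ext]

omit [IsUltrametricDist K] in
lemma ext0_castSucc (δ : Fin d → K) (i : Fin d) : ext0 δ i.castSucc = δ i := by simp [ext0]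

omit [IsUltrametricDist K] in
lemma ext_add (u δ : Fin d → K) (i : Fin (d + 1)) : ext (u + δ) i = ext u i + ext0 δ i := by
  refine Fin.lastCases ?_ ?_ i
  · simp [ext_last, ext0_last]
  · intro j; simp [ext_castSucc, ext0_castSucc]

omit [IsUltrametricDist K] in
lemma ext0_add_smul (δ ε : Fin d → K) (c : K) (i : Fin (d + 1)) :
    ext0 (c • δ + ε) i = c * ext0 δ i + ext0 ε i := by
  refine Fin.lastCases ?_ ?_ i
  · simp [ext0_last]
  · intro j; simp [ext0_castSucc]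

omit [IsUltrametricDist K] in
lemma ext_frob (u : Fin d → K) (k : ℕ) (i : Fin (d + 1)) :
    ext (frob p u k) i = ext u i ^ p ^ k := by
  refine Fin.lastCases ?_ ?_ i
  · simp [ext_last]
  · intro j; simp [ext_castSucc, frob]

omit [IsUltrametricDist K] in
lemma L_zero (u : Fin d → K) : L p u 0 = 1 := lg_zero _ _

omit [IsUltrametricDist K] in
lemma L_succ (hp : (p : K) ≠ 0) (u : Fin d → K) (M : ℕ) :
    (p : K) * L p u (M + 1) = ∑ i : Fin (d + 1),
      if (i : ℕ) ≤ M then ext u i ^ p ^ (M - (i : ℕ)) * L p u (M - (i : ℕ)) else 0 := by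
  rw [L, lg_succ, mul_inv_cancel_left₀ hp]

omit [IsUltrametricDist K] in
lemma L_succ' (hp : (p : K) ≠ 0) (u : Fin d → K) (M : ℕ) :
    (p : K) * L p u (M + 1) = ∑ i : Fin (d + 1),
      if (i : ℕ) ≤ M then ext u i * L p (frob p u ((i : ℕ) + 1)) (M - (i : ℕ)) else 0 := by
  have hfun : ∀ k, (fun j => ext u j ^ p ^ k) = ext (frob p u k) :=
    fun k => funext fun j => (ext_frob u k j).symm
  rw [L, lg_succ', mul_inv_cancel_left₀ hp]
  simp only [hfun, L]

omit [IsUltrametricDist K] in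
lemma dual_fst (u δ : Fin d → K) (M : ℕ) :
    (lg p (TrivSqZeroExt.inl ((p : K)⁻¹) : TrivSqZeroExt K K)
      (fun i => TrivSqZeroExt.inl (ext u i) + TrivSqZeroExt.inr (ext0 δ i)) M).fst = L p u M := by
  have := map_lg (p := p) (TrivSqZeroExt.fstHom K K K).toRingHom
    (TrivSqZeroExt.inl ((p : K)⁻¹) : TrivSqZeroExt K K)
    (fun i => TrivSqZeroExt.inl (ext u i) + TrivSqZeroExt.inr (ext0 δ i)) M
  simpa [L, Function.comp_def] using this

omit [IsUltrametricDist K] in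
lemma dL_zero (u δ : Fin d → K) : dL p u δ 0 = 0 := by
  simp [dL, lg_zero]

omit [IsUltrametricDist K] in
lemma dL_succ (hp : (p : K) ≠ 0) (u δ : Fin d → K) (M : ℕ) :
    (p : K) * dL p u δ (M + 1) = ∑ i : Fin (d + 1), if (i : ℕ) ≤ M then
      ext u i ^ p ^ (M - (i : ℕ)) * dL p u δ (M - (i : ℕ)) +
        ((p ^ (M - (i : ℕ)) : ℕ) : K) * ext u i ^ (p ^ (M - (i : ℕ)) - 1) * ext0 δ i *
          L p u (M - (i : ℕ)) else 0 := by
  rw [dL, lg_succ, TrivSqZeroExt.snd_mul, TrivSqZeroExt.fst_inl, TrivSqZeroExt.snd_inl]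
  simp only [smul_zero, add_zero, smul_eq_mul, TrivSqZeroExt.snd_sum]
  rw [mul_inv_cancel_left₀ hp]
  refine Finset.sum_congr rfl fun i _ => ?_
  split_ifs with h
  · rw [TrivSqZeroExt.snd_mul, TrivSqZeroExt.fst_pow, TrivSqZeroExt.snd_pow, dual_fst]
    simp [dL, Nat.pred_eq_sub_one]
    left; ring
  · simp

omit [IsUltrametricDist K] in
lemma dL_succ' (hp : (p : K) ≠ 0) (u δ : Fin d → K) (M : ℕ) :
    (p : K) * dL p u δ (M + 1) = ∑ i : Fin (d + 1), if (i : ℕ) ≤ M then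
      ext0 δ i * L p (frob p u ((i : ℕ) + 1)) (M - (i : ℕ)) +
        ext u i * dL p (frob p u ((i : ℕ) + 1)) (fun k => ((p ^ ((i : ℕ) + 1) : ℕ) : K) *
          u k ^ (p ^ ((i : ℕ) + 1) - 1) * δ k) (M - (i : ℕ)) else 0 := by
  have hpow : ∀ k : ℕ, (fun j => (TrivSqZeroExt.inl (ext u j) +
      TrivSqZeroExt.inr (ext0 δ j) : TrivSqZeroExt K K) ^ p ^ k) =
      fun j => TrivSqZeroExt.inl (ext (frob p u k) j) + TrivSqZeroExt.inr
        (ext0 (fun m => ((p ^ k : ℕ) : K) * u m ^ (p ^ k - 1) * δ m) j) := by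
    intro k; funext j
    refine TrivSqZeroExt.ext ?_ ?_
    · simp [ext_frob]
    · refine Fin.lastCases ?_ ?_ j
      · simp [ext0_last]
      · intro m
        simp [ext_castSucc, ext0_castSucc, Nat.pred_eq_sub_one]
        ring
  rw [dL, lg_succ', TrivSqZeroExt.snd_mul, TrivSqZeroExt.fst_inl, TrivSqZeroExt.snd_inl]
  simp only [smul_zero, add_zero, smul_eq_mul, TrivSqZeroExt.snd_sum]
  rw [mul_inv_cancel_left₀ hp]
  refine Finset.sum_congr rfl fun i _ => ?_
  split_ifs with h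
  · rw [TrivSqZeroExt.snd_mul, hpow, dual_fst]
    simp [dL]
    ring
  · simp

omit [IsUltrametricDist K] in
lemma dL_add_smul (hp : (p : K) ≠ 0) (u δ ε : Fin d → K) (c : K) (M : ℕ) :
    dL p u (c • δ + ε) M = c * dL p u δ M + dL p u ε M := by
  induction M using Nat.strong_induction_on with
  | _ M ih =>
    cases M with
    | zero => simp [dL_zero]
    | succ M =>
      refine mul_left_cancel₀ hp ?_
      rw [mul_add, mul_left_comm, dL_succ hp, dL_succ hp, dL_succ hp, Finset.mul_sum,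
        ← Finset.sum_add_distrib]
      refine Finset.sum_congr rfl fun i _ => ?_
      split_ifs with h
      · rw [ih _ (by omega), ext0_add_smul]
        ring
      · simp

lemma norm_ext_le {u : Fin d → K} {r : ℝ} (hu : ‖u‖ ≤ r) {i : Fin (d + 1)}
    (hi : i ≠ Fin.last d) : ‖ext u i‖ ≤ r := by
  obtain ⟨j, rfl⟩ := Fin.exists_castSucc_eq.2 hi
  rw [ext_castSucc]
  exact (norm_le_pi_norm u j).trans hu

lemma norm_ext0_le (δ : Fin d → K) (i : Fin (d + 1)) : ‖ext0 δ i‖ ≤ ‖δ‖ := by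
  refine Fin.lastCases ?_ ?_ i
  · simp [ext0_last]
  · intro j; simpa [ext0_castSucc] using norm_le_pi_norm δ j

lemma norm_ext_le_one {u : Fin d → K} (hu : ‖u‖ ≤ 1) (i : Fin (d + 1)) : ‖ext u i‖ ≤ 1 := by
  refine Fin.lastCases ?_ ?_ i
  · simp [ext_last]
  · intro j; simpa [ext_castSucc] using (norm_le_pi_norm u j).trans hu

lemma norm_ext_pow_le {u : Fin d → K} {r : ℝ} (hu : ‖u‖ ≤ r) (i : Fin (d + 1)) (N : ℕ) :
    ‖ext u i ^ N‖ ≤ if i = Fin.last d then 1 else r ^ N := by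
  split_ifs with h
  · subst h; simp [ext_last]
  · rw [norm_pow]; exact pow_le_pow_left₀ (norm_nonneg _) (norm_ext_le hu h) _

/-- Uniform bounds on a closed subpolydisc: values, derivative, second order error. -/
lemma exists_bounds (hp : (p : K) ≠ 0) (hp1 : ‖(p : K)‖ < 1) (hp2 : 2 ≤ p) {r : ℝ} (hr0 : 0 ≤ r)
    (hr : r < 1) : ∃ C : ℝ, 1 ≤ C ∧ ∀ u : Fin d → K, ‖u‖ ≤ r → ∀ δ : Fin d → K, ∀ M,
      ‖(p : K)‖ ^ (M / (d + 1)) * ‖L p u M‖ ≤ C ∧
      ‖(p : K)‖ ^ (M / (d + 1)) * ‖dL p u δ M‖ ≤ C * ‖δ‖ ∧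
      (‖δ‖ ≤ r → ‖(p : K)‖ ^ (M / (d + 1)) *
        ‖L p (u + δ) M - L p u M - dL p u δ M‖ ≤ C * ‖δ‖ ^ 2) := by
  obtain ⟨G, hG1, hG⟩ := exists_growth (K := K) (d := d) hp hp1 hp2 hr0 hr
  set q := ‖(p : K)‖ with hq
  have hq0 : 0 < q := norm_pos_iff.2 hp
  have hB0 : ∀ {A B : ℝ} {e : ℕ}, 0 ≤ A → A * q ≤ q ^ e * B → 0 ≤ B := fun hA h =>
    nonneg_of_mul_nonneg_right (le_trans (mul_nonneg hA hq0.le) h) (pow_pos hq0 _)
  -- a term with two factors, the second already bounded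
  have hterm : ∀ {A B c : ℝ} {M i : ℕ} (x y : K), 0 ≤ c → ‖x‖ ≤ c →
      q ^ ((M - i) / (d + 1)) * ‖y‖ ≤ A → c * A / q * q ≤ q ^ ((M + 1) / (d + 1)) * B →
      ‖x * y‖ ≤ B := by
    intro A B c M i x y hc hx hy h
    rw [div_mul_cancel₀ _ hq0.ne'] at h
    rw [norm_mul]
    refine le_of_mul_le_mul_left ?_ (pow_pos hq0 ((M + 1) / (d + 1)))
    refine le_trans ?_ h
    calc q ^ ((M + 1) / (d + 1)) * (‖x‖ * ‖y‖) ≤ q ^ ((M - i) / (d + 1)) * (c * ‖y‖) := by
          refine mul_le_mul (pow_le_pow_of_le_one hq0.le hp1.le (Nat.div_le_div_right (by omega)))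
            (mul_le_mul_of_nonneg_right hx (norm_nonneg _)) (by positivity) (by positivity)
      _ = c * (q ^ ((M - i) / (d + 1)) * ‖y‖) := by ring
      _ ≤ c * A := mul_le_mul_of_nonneg_left hy hc
  have hLb : ∀ u : Fin d → K, ‖u‖ ≤ r → ∀ M, q ^ (M / (d + 1)) * ‖L p u M‖ ≤ G := by
    intro u hu M
    refine le_of_le_of_eq (hG 1 (L p u) zero_le_one (by simp [L_zero]) ?_ M) (mul_one G)
    intro M B hA hB
    rw [L_succ hp]
    refine IsUltrametricDist.norm_sum_le_of_forall_le_of_nonneg (hB0 zero_le_one hA)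
      fun i _ => ?_
    split_ifs with h
    · rw [norm_mul]
      exact (mul_le_mul_of_nonneg_right (norm_ext_pow_le hu i _) (norm_nonneg _)).trans (hB i h)
    · simpa using hB0 zero_le_one hA
  have hdLb : ∀ u : Fin d → K, ‖u‖ ≤ r → ∀ δ M,
      q ^ (M / (d + 1)) * ‖dL p u δ M‖ ≤ G * (‖δ‖ * G / q) := by
    intro u hu δ M
    have hA0 : (0 : ℝ) ≤ ‖δ‖ * G / q := by positivity
    refine hG _ (dL p u δ) hA0 (by simpa [dL_zero] using hA0) ?_ M
    intro M B hA hB
    rw [dL_succ hp]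
    refine IsUltrametricDist.norm_sum_le_of_forall_le_of_nonneg (hB0 hA0 hA) fun i _ => ?_
    split_ifs with h
    · refine (IsUltrametricDist.norm_add_le_max _ _).trans (max_le ?_ ?_)
      · rw [norm_mul]
        exact (mul_le_mul_of_nonneg_right (norm_ext_pow_le hu i _) (norm_nonneg _)).trans (hB i h)
      · refine hterm (A := G) (c := ‖δ‖) _ _ (norm_nonneg _) ?_ (hLb u hu _) hA
        rw [norm_mul, norm_mul, norm_pow]
        refine (mul_le_of_le_one_left (norm_nonneg _) ?_).trans (norm_ext0_le δ i)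
        exact mul_le_one₀ (IsUltrametricDist.norm_natCast_le_one K _) (by positivity)
          (pow_le_one₀ (norm_nonneg _) (norm_ext_le_one (hu.trans hr.le) i))
    · simpa using hB0 hA0 hA
  set C₁ := G * (G / q) with hC₁
  have hG0 : (0 : ℝ) ≤ G := zero_le_one.trans hG1
  have hGC : G ≤ C₁ := by
    refine le_mul_of_one_le_right hG0 ?_
    rw [one_le_div hq0]; exact hp1.le.trans hG1
  set C₂ := G * (C₁ / q) with hC₂
  have hC₁0 : 0 ≤ C₁ := hG0.trans hGC
  refine ⟨max C₁ C₂, le_max_of_le_left (hG1.trans hGC), fun u hu δ M => ⟨?_, ?_, ?_⟩⟩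
  · exact (hLb u hu M).trans (hGC.trans (le_max_left _ _))
  · refine (hdLb u hu δ M).trans ?_
    rw [show G * (‖δ‖ * G / q) = C₁ * ‖δ‖ by rw [hC₁]; ring]
    exact mul_le_mul_of_nonneg_right (le_max_left _ _) (norm_nonneg _)
  · intro hδ
    have hA0 : (0 : ℝ) ≤ ‖δ‖ ^ 2 * C₁ / q := by positivity
    refine (hG _ (fun M => L p (u + δ) M - L p u M - dL p u δ M) hA0
      (by simpa [dL_zero, L_zero] using hA0) ?_ M).trans ?_
    · intro M B hA hB
      have huδ : ‖u + δ‖ ≤ r := by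
        refine (pi_norm_le_iff_of_nonneg hr0).2 fun j => ?_
        exact (IsUltrametricDist.norm_add_le_max _ _).trans
          (max_le ((norm_le_pi_norm u j).trans hu) ((norm_le_pi_norm δ j).trans hδ))
      rw [mul_sub, mul_sub, L_succ hp, L_succ hp, dL_succ hp, ← Finset.sum_sub_distrib,
        ← Finset.sum_sub_distrib]
      refine IsUltrametricDist.norm_sum_le_of_forall_le_of_nonneg (hB0 hA0 hA) fun i _ => ?_
      split_ifs with h
      · set a := ext u i
        set e := ext0 δ i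
        set N := p ^ (M - (i : ℕ))
        have ha : ‖a‖ ≤ 1 := norm_ext_le_one (hu.trans hr.le) i
        have he : ‖e‖ ≤ ‖δ‖ := norm_ext0_le δ i
        have he1 : ‖e‖ ≤ 1 := he.trans (hδ.trans hr.le)
        rw [ext_add]
        rw [show (a + e) ^ N * L p (u + δ) (M - (i : ℕ)) - a ^ N * L p u (M - (i : ℕ)) -
            (a ^ N * dL p u δ (M - (i : ℕ)) + (N : K) * a ^ (N - 1) * e * L p u (M - (i : ℕ))) =
          (a + e) ^ N * (L p (u + δ) (M - (i : ℕ)) - L p u (M - (i : ℕ)) -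
              dL p u δ (M - (i : ℕ))) +
            (((a + e) ^ N - a ^ N - (N : K) * a ^ (N - 1) * e) * L p u (M - (i : ℕ)) +
              ((a + e) ^ N - a ^ N) * dL p u δ (M - (i : ℕ))) by ring]
        refine (IsUltrametricDist.norm_add_le_max _ _).trans (max_le ?_
          ((IsUltrametricDist.norm_add_le_max _ _).trans (max_le ?_ ?_)))
        · rw [norm_mul, ← ext_add]
          exact (mul_le_mul_of_nonneg_right (norm_ext_pow_le huδ i _) (norm_nonneg _)).trans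
            (hB i h)
        · refine hterm (A := C₁) (c := ‖δ‖ ^ 2) _ _ (by positivity) ?_
            ((hLb u hu _).trans hGC) hA
          exact (norm_add_pow_sub_sub_le ha he1 N).trans (pow_le_pow_left₀ (norm_nonneg _) he 2)
        · refine hterm (A := C₁ * ‖δ‖) (c := ‖δ‖) (i := (i : ℕ)) _ _ (norm_nonneg _)
            ((norm_add_pow_sub_pow_le ha he1 N).trans he) ?_ (le_of_eq_of_le (by ring) hA)
          exact le_of_le_of_eq (hdLb u hu δ _) (by rw [hC₁]; ring)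
      · simpa using hB0 hA0 hA
    · rw [show G * (‖δ‖ ^ 2 * C₁ / q) = C₂ * ‖δ‖ ^ 2 by rw [hC₂]; ring]
      exact mul_le_mul_of_nonneg_right (le_max_right _ _) (by positivity)

/-- `w_i(u) = lim_j p^j L (n j + i)`. -/
noncomputable def w (p : ℕ) (u : Fin d → K) : Fin (d + 1) → K := fun i =>
  limUnder atTop fun j => (p : K) ^ j * L p u ((d + 1) * j + (i : ℕ))

/-- The derivative of `w`. -/
noncomputable def Dw (p : ℕ) (u δ : Fin d → K) : Fin (d + 1) → K := fun i =>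
  limUnder atTop fun j => (p : K) ^ j * dL p u δ ((d + 1) * j + (i : ℕ))

variable [CompleteSpace K]

lemma per_w (hp : (p : K) ≠ 0) (hp1 : ‖(p : K)‖ < 1) (hp2 : 2 ≤ p) {u : Fin d → K}
    (hu : ‖u‖ < 1) : Per p (L p u) (w p u) := by
  obtain ⟨C, hC1, hC⟩ := exists_bounds (K := K) (d := d) hp hp1 hp2 (norm_nonneg u) hu
  suffices h : ∃ v : Fin (d + 1) → K, Per p (L p u) v by
    obtain ⟨v, hv⟩ := h
    intro i
    rw [show w p u i = v i from (hv i).limUnder_eq]
    exact hv i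
  refine exists_per hp _ (norm_nonneg u) hu (C := C) fun M hM => ?_
  rw [L_succ hp, Fin.sum_univ_castSucc]
  simp only [Fin.val_last, if_pos hM, ext_last, one_pow, one_mul, add_sub_cancel_right]
  have hC0 : (0 : ℝ) ≤ C := zero_le_one.trans hC1
  have hq0 : (0 : ℝ) < ‖(p : K)‖ ^ (M / (d + 1)) := pow_pos (norm_pos_iff.2 hp) _
  rw [mul_comm, ← le_div_iff₀ hq0]
  refine IsUltrametricDist.norm_sum_le_of_forall_le_of_nonneg (by positivity) fun i _ => ?_
  rw [Fin.val_castSucc, if_pos (by omega), le_div_iff₀ hq0, norm_mul, norm_pow, ext_castSucc]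
  have hb := (hC u le_rfl 0 (M - (i : ℕ))).1
  calc ‖u i‖ ^ p ^ (M - (i : ℕ)) * ‖L p u (M - (i : ℕ))‖ * ‖(p : K)‖ ^ (M / (d + 1))
      ≤ ‖u‖ ^ (M - d) * (‖(p : K)‖ ^ ((M - (i : ℕ)) / (d + 1)) * ‖L p u (M - (i : ℕ))‖) := by
        rw [mul_assoc, mul_comm ‖L p u _‖]
        refine mul_le_mul ?_ (mul_le_mul_of_nonneg_right (pow_le_pow_of_le_one (norm_nonneg _)
          hp1.le (Nat.div_le_div_right (Nat.sub_le _ _))) (norm_nonneg _))
          (by positivity) (by positivity)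
        refine le_trans (pow_le_pow_left₀ (norm_nonneg _) (norm_le_pi_norm u i) _) ?_
        exact pow_le_pow_of_le_one (norm_nonneg _) hu.le
          (le_trans (by omega) (Nat.lt_pow_self (n := M - (i : ℕ)) hp2).le)
    _ ≤ C * ‖u‖ ^ (M - d) := by
        rw [mul_comm C]; exact mul_le_mul_of_nonneg_left hb (by positivity)

lemma per_Dw (hp : (p : K) ≠ 0) (hp1 : ‖(p : K)‖ < 1) (hp2 : 2 ≤ p) {u : Fin d → K}
    (hu : ‖u‖ < 1) (δ : Fin d → K) : Per p (dL p u δ) (Dw p u δ) := by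
  obtain ⟨C, hC1, hC⟩ := exists_bounds (K := K) (d := d) hp hp1 hp2 (norm_nonneg u) hu
  suffices h : ∃ v : Fin (d + 1) → K, Per p (dL p u δ) v by
    obtain ⟨v, hv⟩ := h
    intro i
    rw [show Dw p u δ i = v i from (hv i).limUnder_eq]
    exact hv i
  set ρ := max ‖u‖ ‖(p : K)‖ with hρ
  have hρ0 : (0 : ℝ) ≤ ρ := le_max_of_le_left (norm_nonneg _)
  have hρ1 : ρ < 1 := max_lt hu hp1
  refine exists_per hp _ hρ0 hρ1 (C := C * ‖δ‖) fun M hM => ?_
  rw [dL_succ hp, Fin.sum_univ_castSucc]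
  simp only [Fin.val_last, if_pos hM, ext_last, one_pow, one_mul, ext0_last, mul_zero, zero_mul,
    add_zero, add_sub_cancel_right]
  have hC0 : (0 : ℝ) ≤ C := zero_le_one.trans hC1
  have hq0 : (0 : ℝ) < ‖(p : K)‖ ^ (M / (d + 1)) := pow_pos (norm_pos_iff.2 hp) _
  rw [mul_comm, ← le_div_iff₀ hq0]
  refine IsUltrametricDist.norm_sum_le_of_forall_le_of_nonneg (by positivity) fun i _ => ?_
  rw [Fin.val_castSucc, if_pos (by omega), le_div_iff₀ hq0]
  have hb := hC u le_rfl δ (M - (i : ℕ))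
  have hmono : ∀ y : K, ‖y‖ * ‖(p : K)‖ ^ (M / (d + 1)) ≤
      ‖(p : K)‖ ^ ((M - (i : ℕ)) / (d + 1)) * ‖y‖ := fun y => by
    rw [mul_comm]
    exact mul_le_mul_of_nonneg_right (pow_le_pow_of_le_one (norm_nonneg _) hp1.le
      (Nat.div_le_div_right (Nat.sub_le _ _))) (norm_nonneg _)
  have hexp : M - d ≤ p ^ (M - (i : ℕ)) :=
    le_trans (by omega) (Nat.lt_pow_self (n := M - (i : ℕ)) hp2).le
  refine le_trans (mul_le_mul_of_nonneg_right (IsUltrametricDist.norm_add_le_max _ _) hq0.le) ?_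
  rw [max_mul_of_nonneg _ _ hq0.le, mul_comm (C * ‖δ‖)]
  refine max_le ?_ ?_
  · rw [norm_mul, mul_assoc]
    refine mul_le_mul ?_ ((hmono _).trans hb.2.1) (by positivity) (by positivity)
    rw [norm_pow, ext_castSucc]
    refine (pow_le_pow_left₀ (norm_nonneg _) ((norm_le_pi_norm u i).trans (le_max_left _ ‖(p : K)‖)) _).trans ?_
    exact pow_le_pow_of_le_one hρ0 hρ1.le hexp
  · rw [norm_mul, mul_assoc, norm_mul, norm_mul, ext0_castSucc, ext_castSucc,
      show ρ ^ (M - d) * (C * ‖δ‖) = (ρ ^ (M - d) * ‖δ‖) * C by ring]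
    refine mul_le_mul ?_ ((hmono _).trans hb.1) (by positivity) (by positivity)
    refine mul_le_mul ?_ (norm_le_pi_norm δ i) (norm_nonneg _) (by positivity)
    rw [Nat.cast_pow, norm_pow, norm_pow]
    refine (mul_le_of_le_one_right (by positivity)
      (pow_le_one₀ (norm_nonneg _) ((norm_le_pi_norm u i).trans hu.le))).trans ?_
    refine (pow_le_pow_left₀ (norm_nonneg _) (le_max_right ‖u‖ _) _).trans ?_
    exact pow_le_pow_of_le_one hρ0 hρ1.le (by omega)

lemma Dw_add_smul (hp : (p : K) ≠ 0) (hp1 : ‖(p : K)‖ < 1) (hp2 : 2 ≤ p) {u : Fin d → K}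
    (hu : ‖u‖ < 1) (δ ε : Fin d → K) (c : K) :
    Dw p u (c • δ + ε) = c • Dw p u δ + Dw p u ε := by
  have h := ((per_Dw hp hp1 hp2 hu δ).smul c).add (per_Dw hp hp1 hp2 hu ε)
  rw [show c • dL p u δ + dL p u ε = dL p u (c • δ + ε) from
    funext fun M => (dL_add_smul hp u δ ε c M).symm] at h
  exact (per_Dw hp hp1 hp2 hu _).unique h

lemma exists_w_bounds (hp : (p : K) ≠ 0) (hp1 : ‖(p : K)‖ < 1) (hp2 : 2 ≤ p) {r : ℝ}
    (hr0 : 0 ≤ r) (hr : r < 1) : ∃ C : ℝ, 1 ≤ C ∧ ∀ u : Fin d → K, ‖u‖ ≤ r → ∀ δ : Fin d → K,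
      ‖w p u‖ ≤ C ∧ ‖Dw p u δ‖ ≤ C * ‖δ‖ ∧ (‖δ‖ ≤ r →
        ‖w p (u + δ) - w p u - Dw p u δ‖ ≤ C * ‖δ‖ ^ 2 ∧
        ‖w p (u + δ) - w p u‖ ≤ C * ‖δ‖) := by
  obtain ⟨C, hC1, hC⟩ := exists_bounds (K := K) (d := d) hp hp1 hp2 hr0 hr
  refine ⟨C, hC1, fun u hu δ => ⟨?_, ?_, fun hδ => ?_⟩⟩
  · exact (per_w hp hp1 hp2 (hu.trans_lt hr)).norm_le fun M => (hC u hu δ M).1
  · exact (per_Dw hp hp1 hp2 (hu.trans_lt hr) δ).norm_le fun M => (hC u hu δ M).2.1
  · have huδ : ‖u + δ‖ ≤ r := by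
      refine (pi_norm_le_iff_of_nonneg hr0).2 fun j => ?_
      exact (IsUltrametricDist.norm_add_le_max _ _).trans
        (max_le ((norm_le_pi_norm u j).trans hu) ((norm_le_pi_norm δ j).trans hδ))
    have h1 := (per_w hp hp1 hp2 (huδ.trans_lt hr)).sub (per_w hp hp1 hp2 (hu.trans_lt hr))
    have hE : ‖w p (u + δ) - w p u - Dw p u δ‖ ≤ C * ‖δ‖ ^ 2 :=
      (h1.sub (per_Dw hp hp1 hp2 (hu.trans_lt hr) δ)).norm_le fun M => (hC u hu δ M).2.2 hδ
    refine ⟨hE, h1.norm_le fun M => ?_⟩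
    simp only [Pi.sub_apply]
    rw [show L p (u + δ) M - L p u M =
      (L p (u + δ) M - L p u M - dL p u δ M) + dL p u δ M by ring]
    refine (mul_le_mul_of_nonneg_left (IsUltrametricDist.norm_add_le_max _ _)
      (by positivity)).trans ?_
    rw [mul_max_of_nonneg _ _ (by positivity)]
    refine max_le (((hC u hu δ M).2.2 hδ).trans ?_) (hC u hu δ M).2.1
    exact mul_le_mul_of_nonneg_left
      (by rw [sq]; exact mul_le_of_le_one_left (norm_nonneg _) (hδ.trans hr.le))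
      (zero_le_one.trans hC1)

lemma w_zero (hp : (p : K) ≠ 0) (hp1 : ‖(p : K)‖ < 1) (hp2 : 2 ≤ p) :
    w p (0 : Fin d → K) = Pi.single 0 1 := by
  refine (per_w hp hp1 hp2 (by simp)).unique fun i => ?_
  refine tendsto_const_nhds.congr fun j => ?_
  have hz : ∀ (M : ℕ) (k : Fin d), (0 : K) ^ p ^ (M - (k : ℕ)) = 0 := fun M k =>
    zero_pow (pow_ne_zero _ (by omega))
  induction j with
  | zero =>
    rcases Nat.eq_zero_or_pos (i : ℕ) with h | h
    · rw [show i = 0 from Fin.ext h]; simp [L_zero]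
    · obtain ⟨m, hm⟩ : ∃ m, (i : ℕ) = m + 1 := ⟨(i : ℕ) - 1, by omega⟩
      have hi0 : i ≠ 0 := by rintro rfl; simp at h
      have : (p : K) * L p (0 : Fin d → K) (m + 1) = 0 := by
        rw [L_succ hp, Fin.sum_univ_castSucc, if_neg (by simp; omega)]
        simp only [ext_castSucc, Pi.zero_apply, Fin.val_castSucc, hz, zero_mul, ite_self,
          Finset.sum_const_zero, add_zero]
      rw [Pi.single_eq_of_ne hi0, pow_zero, one_mul, Nat.mul_zero, Nat.zero_add, hm]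
      exact ((mul_eq_zero.1 this).resolve_left hp).symm
  | succ j ih =>
    rw [ih, pow_succ, mul_assoc,
      show (d + 1) * (j + 1) + (i : ℕ) = (d + 1) * j + (i : ℕ) + d + 1 by ring, L_succ hp,
      Fin.sum_univ_castSucc, if_pos (by simp)]
    simp [ext_castSucc, hz, ext_last]

end Vale.Agent.P217.Generic
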