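import Mathlib
import Vale.Agent.P217.Generic.Period

/-!
P217, generic fibre: the period matrix has determinant one, and `w` together with its partial
derivatives is a frame of `K^n` at every point of the open polydisc.
-/

namespace Vale.Agent.P217.Generic

open Filter Topology Finset Matrix

variable {K : Type*} [NormedField K] [IsUltrametricDist K] [CompleteSpace K] {p d : ℕ}

/-- Companion matrix of the recursion. -/
def Comp (p : ℕ) (u : Fin d → K) : Matrix (Fin (d + 1)) (Fin (d + 1)) K :=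
  fun l => Fin.lastCases (Fin.cons (p : K) (fun i => -u i)) (fun j => Pi.single j.succ 1) l

/-- The rows `b_l` of the period matrix. -/
noncomputable def b (p : ℕ) (u : Fin d → K) (l : ℕ) : Fin (d + 1) → K :=
  (S p)^[l] (w p (frob p u l))

/-- The period matrix. -/
noncomputable def B (p : ℕ) (u : Fin d → K) : Matrix (Fin (d + 1)) (Fin (d + 1)) K :=
  fun l => b p u (l : ℕ)

omit [IsUltrametricDist K] [CompleteSpace K] in
lemma frob_zero_right (u : Fin d → K) : frob p u 0 = u := by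
  funext i; simp [frob]

omit [IsUltrametricDist K] [CompleteSpace K] in
lemma frob_frob (u : Fin d → K) (a c : ℕ) : frob p (frob p u a) c = frob p u (a + c) := by
  funext i; simp only [frob, ← pow_mul, ← pow_add]

omit [IsUltrametricDist K] [CompleteSpace K] in
lemma norm_frob_le (hp2 : 2 ≤ p) {u : Fin d → K} (hu : ‖u‖ < 1) (N : ℕ) :
    ‖frob p u N‖ ≤ ‖u‖ := by
  refine (pi_norm_le_iff_of_nonneg (norm_nonneg u)).2 fun i => ?_
  rw [frob, norm_pow]
  exact (pow_le_of_le_one (norm_nonneg _) ((norm_le_pi_norm u i).trans hu.le)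
    (pow_ne_zero _ (by omega))).trans (norm_le_pi_norm u i)

omit [IsUltrametricDist K] [CompleteSpace K] in
lemma tendsto_frob (hp2 : 2 ≤ p) {u : Fin d → K} (hu : ‖u‖ < 1) :
    Tendsto (frob p u) atTop (𝓝 0) := by
  refine squeeze_zero_norm (a := fun N => ‖u‖ ^ N) (fun N => ?_)
    (tendsto_pow_atTop_nhds_zero_of_lt_one (norm_nonneg _) hu)
  refine (pi_norm_le_iff_of_nonneg (by positivity)).2 fun i => ?_
  rw [frob, norm_pow]
  exact (pow_le_pow_left₀ (norm_nonneg _) (norm_le_pi_norm u i) _).trans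
    (pow_le_pow_of_le_one (norm_nonneg _) hu.le (Nat.lt_pow_self hp2).le)

omit [IsUltrametricDist K] [CompleteSpace K] in
lemma S_smul (c : K) (v : Fin (d + 1) → K) : S p (c • v) = c • S p v := by
  funext i; refine Fin.cases ?_ ?_ i <;> simp [S, mul_left_comm]

omit [IsUltrametricDist K] [CompleteSpace K] in
lemma S_iterate_smul (m : ℕ) (c : K) (v : Fin (d + 1) → K) :
    (S p)^[m] (c • v) = c • (S p)^[m] v :=
  Function.Semiconj.iterate_right (f := (c • ·)) (fun v => (S_smul c v).symm) m v |>.symm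

omit [IsUltrametricDist K] [CompleteSpace K] in
lemma continuous_S : Continuous (S p : (Fin (d + 1) → K) → Fin (d + 1) → K) := by
  refine continuous_pi fun i => ?_
  refine Fin.cases ?_ ?_ i
  · simp only [S, Fin.cons_zero]; fun_prop
  · intro j; simp only [S, Fin.cons_succ]; fun_prop

omit [IsUltrametricDist K] [CompleteSpace K] in
lemma vecMul_comp_zero (v : Fin (d + 1) → K) : v ᵥ* Comp p (0 : Fin d → K) = S p v := by
  funext i
  show ∑ k, v k * Comp p (0 : Fin d → K) k i = _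
  rw [Fin.sum_univ_castSucc]
  refine Fin.cases ?_ ?_ i
  · simp [Comp, S, mul_comm, Fin.succ_ne_zero, Pi.single_apply, eq_comm]
  · intro j
    simp [Comp, S, Pi.single_apply, Fin.succ_inj]

omit [IsUltrametricDist K] [CompleteSpace K] in
lemma det_comp (u : Fin d → K) : (Comp p u).det = (-1) ^ d * p := by
  rw [Matrix.det_succ_column_zero, Fin.sum_univ_castSucc]
  have h : (Comp p u).submatrix (Fin.last d).succAbove Fin.succ = 1 := by
    ext a c
    simp [Comp, Fin.succAbove_last, Matrix.one_apply, Pi.single_apply, eq_comm]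
  rw [h]
  simp [Comp, Pi.single_apply, Fin.succ_ne_zero, eq_comm]

lemma norm_vecMul_le {A : Matrix (Fin (d + 1)) (Fin (d + 1)) K} (hA : ∀ k i, ‖A k i‖ ≤ 1)
    (x : Fin (d + 1) → K) : ‖x ᵥ* A‖ ≤ ‖x‖ := by
  refine (pi_norm_le_iff_of_nonneg (norm_nonneg x)).2 fun i => ?_
  show ‖∑ k, x k * A k i‖ ≤ _
  refine IsUltrametricDist.norm_sum_le_of_forall_le_of_nonneg (norm_nonneg x) fun k _ => ?_
  rw [norm_mul]
  exact (mul_le_of_le_one_right (norm_nonneg _) (hA k i)).trans (norm_le_pi_norm x k)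

lemma norm_comp_le (u : Fin d → K) (hu : ‖u‖ ≤ 1) (k i : Fin (d + 1)) : ‖Comp p u k i‖ ≤ 1 := by
  refine Fin.lastCases ?_ ?_ k
  · refine Fin.cases ?_ ?_ i
    · simpa [Comp] using IsUltrametricDist.norm_natCast_le_one K p
    · intro j; simpa [Comp] using (norm_le_pi_norm u j).trans hu
  · intro j
    simp only [Comp, Fin.lastCases_castSucc, Pi.single_apply]
    split_ifs <;> simp

omit [IsUltrametricDist K] [CompleteSpace K] in
lemma b_zero (u : Fin d → K) : b p u 0 = w p u := by simp [b, frob_zero_right]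

omit [IsUltrametricDist K] [CompleteSpace K] in
lemma b_succ (u : Fin d → K) (l : ℕ) : b p u (l + 1) = S p (b p (frob p u 1) l) := by
  rw [b, b, Function.iterate_succ_apply', frob_frob, Nat.add_comm 1 l]

variable (hp : (p : K) ≠ 0) (hp1 : ‖(p : K)‖ < 1) (hp2 : 2 ≤ p)
include hp hp1 hp2

lemma smul_w_eq {u : Fin d → K} (hu : ‖u‖ < 1) :
    (p : K) • w p u = ∑ i : Fin (d + 1), ext u i • b p u ((i : ℕ) + 1) := by
  refine ((per_w hp hp1 hp2 hu).smul (p : K)).unique (Per.congr'
    (X := ∑ i : Fin (d + 1), ext u i • sh^[(i : ℕ) + 1] (L p (frob p u ((i : ℕ) + 1))))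
    (Per.sum fun i _ => ((per_w hp hp1 hp2
      ((norm_frob_le hp2 hu _).trans_lt hu)).shift_iterate _).smul _) ?_)
  filter_upwards [eventually_ge_atTop 1] with M hM
  obtain ⟨N, rfl⟩ : ∃ N, M = N + 1 := ⟨M - 1, by omega⟩
  rw [Pi.smul_apply, smul_eq_mul, L_succ' hp, Finset.sum_apply]
  refine Finset.sum_congr rfl fun i _ => ?_
  rw [Pi.smul_apply, smul_eq_mul, sh_iterate, Nat.add_sub_add_right]
  by_cases h : (i : ℕ) ≤ N <;> simp [h]

lemma comp_mul_B {u : Fin d → K} (hu : ‖u‖ < 1) :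
    Comp p u * B p u = B p (frob p u 1) * Comp p (0 : Fin d → K) := by
  funext l
  rw [Matrix.mul_apply_eq_vecMul, Matrix.mul_apply_eq_vecMul, vecMul_comp_zero]
  show _ = S p (b p (frob p u 1) l)
  rw [← b_succ, Matrix.vecMul_eq_sum]
  refine Fin.lastCases ?_ ?_ l
  · have h := smul_w_eq hp hp1 hp2 hu
    rw [Fin.sum_univ_castSucc] at h
    simp only [ext_castSucc, ext_last, one_smul, Fin.val_castSucc, Fin.val_last] at h
    rw [Fin.sum_univ_succ]
    simp only [Comp, Fin.lastCases_last, Fin.cons_zero, Fin.cons_succ, B, Fin.val_zero,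
      Fin.val_succ, Fin.val_last, b_zero, neg_smul, Finset.sum_neg_distrib]
    rw [h]; abel
  · intro j
    simp [Comp, B, Pi.single_apply, Fin.val_succ, ite_smul]

lemma B_zero : B p (0 : Fin d → K) = 1 := by
  have hf : ∀ k, frob p (0 : Fin d → K) k = 0 := fun k => by
    funext i; simp [frob, zero_pow (pow_ne_zero k (by omega : p ≠ 0))]
  have hl : ∀ l : ℕ, (hl : l < d + 1) → b p (0 : Fin d → K) l = Pi.single ⟨l, hl⟩ 1 := by
    intro l
    induction l with
    | zero => intro _; rw [b_zero, w_zero hp hp1 hp2]; rfl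
    | succ l ih =>
      intro hl
      rw [b_succ, hf, ih (by omega)]
      funext i
      refine Fin.cases ?_ ?_ i
      · simp [S, Pi.single_apply, Fin.ext_iff]; omega
      · intro j; simp [S, Pi.single_apply, Fin.ext_iff]
  funext l i
  rw [B, hl _ l.2, Pi.single_apply, Matrix.one_apply]
  simp [eq_comm]

lemma tendsto_w_frob {u : Fin d → K} (hu : ‖u‖ < 1) (l : ℕ) :
    Tendsto (fun N => w p (frob p (frob p u N) l)) atTop (𝓝 (w p (0 : Fin d → K))) := by
  obtain ⟨C, _, hC⟩ := exists_w_bounds (K := K) (d := d) hp hp1 hp2 (norm_nonneg u) hu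
  rw [tendsto_iff_norm_sub_tendsto_zero]
  refine squeeze_zero (fun _ => norm_nonneg _) (fun N => ?_)
    (show Tendsto (fun N => C * ‖frob p u (N + l)‖) atTop (𝓝 0) by
      simpa using ((tendsto_frob hp2 hu).comp (tendsto_add_atTop_nat l)).norm.const_mul C)
  have := ((hC 0 (by simp) (frob p u (N + l))).2.2 (norm_frob_le hp2 hu _)).2
  simpa [frob_frob] using this

lemma tendsto_B {u : Fin d → K} (hu : ‖u‖ < 1) :
    Tendsto (fun N => B p (frob p u N)) atTop (𝓝 1) := by
  rw [← B_zero (d := d) hp hp1 hp2]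
  refine tendsto_pi_nhds.2 fun l => ?_
  have h0 : frob p (0 : Fin d → K) (l : ℕ) = 0 := by
    funext i; simp [frob, zero_pow (pow_ne_zero (l : ℕ) (by omega : p ≠ 0))]
  have := ((continuous_S (K := K) (p := p) (d := d)).iterate (l : ℕ)).tendsto (w p (0 : Fin d → K))
  show Tendsto (fun N => b p (frob p u N) l) atTop (𝓝 (b p 0 l))
  unfold b
  rw [h0]
  exact this.comp (tendsto_w_frob hp hp1 hp2 hu l)

lemma det_B {u : Fin d → K} (hu : ‖u‖ < 1) : (B p u).det = 1 := by
  have hstep : ∀ N, (B p (frob p u N)).det = (B p u).det := by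
    intro N
    induction N with
    | zero => rw [frob_zero_right]
    | succ N ih =>
      have h := congrArg Matrix.det
        (comp_mul_B hp hp1 hp2 ((norm_frob_le (u := u) hp2 hu N).trans_lt hu))
      rw [Matrix.det_mul, Matrix.det_mul, det_comp, det_comp, frob_frob, mul_comm] at h
      rw [← ih, ← mul_right_cancel₀
        (mul_ne_zero (pow_ne_zero _ (neg_ne_zero.2 one_ne_zero)) hp) h]
  have h1 := ((continuous_id (X := Matrix (Fin (d + 1)) (Fin (d + 1)) K)).matrix_det.tendsto 1).comp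
    (tendsto_B hp hp1 hp2 hu)
  simp only [id, Function.comp_def, hstep, Matrix.det_one] at h1
  exact tendsto_nhds_unique tendsto_const_nhds h1

lemma vecMul_B_injective {u : Fin d → K} (hu : ‖u‖ < 1) :
    Function.Injective fun x => x ᵥ* B p u := by
  intro x y h
  have h2 := congrArg (fun z => z ᵥ* (B p u).adjugate) h
  simpa [Matrix.vecMul_vecMul, Matrix.mul_adjugate, det_B hp hp1 hp2 hu] using h2

lemma exists_coord_shift {m : ℕ} {u : Fin d → K} (hu : ‖u‖ < 1) (x : Fin (d + 1) → K) :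
    ∃ y : Fin (d + 1) → K, ‖y‖ ≤ ‖x‖ ∧
      (S p)^[m] (x ᵥ* B p (frob p u m)) = y ᵥ* B p u := by
  induction m generalizing u with
  | zero => exact ⟨x, le_rfl, by simp [frob_zero_right]⟩
  | succ m ih =>
    obtain ⟨y, hy, h⟩ := ih ((norm_frob_le hp2 hu 1).trans_lt hu)
    refine ⟨y ᵥ* Comp p u, (norm_vecMul_le (norm_comp_le u hu.le) y).trans hy, ?_⟩
    rw [Function.iterate_succ_apply', Nat.add_comm m 1, ← frob_frob, h, ← vecMul_comp_zero,
      Matrix.vecMul_vecMul, Matrix.vecMul_vecMul, comp_mul_B hp hp1 hp2 hu]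

/-- Coefficients in the recursion for `p ∂_l w`. -/
noncomputable def cf (p : ℕ) (v : Fin d → K) (l : Fin d) (i : Fin (d + 1)) : K :=
  ext v i * ((p : K) ^ (i : ℕ) * v l ^ (p ^ ((i : ℕ) + 1) - 1))

omit [IsUltrametricDist K] [CompleteSpace K] hp1 hp2 in
lemma dL_single (v : Fin d → K) (l : Fin d) (a : K) (T : ℕ) :
    dL p v (Pi.single l a) T = a * dL p v (Pi.single l 1) T := by
  have h2 := dL_add_smul hp v (Pi.single l 1) 0 a T
  have h0 := dL_add_smul hp v 0 0 1 T
  simp only [smul_zero, add_zero, one_mul] at h0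
  have h0' : dL p v (0 : Fin d → K) T = 0 := by linear_combination -h0
  rw [add_zero, h0', add_zero, ← Pi.single_smul'] at h2
  simpa using h2

omit [IsUltrametricDist K] [CompleteSpace K] hp1 hp2 in
lemma dL_rec (v : Fin d → K) (l : Fin d) (T : ℕ) :
    (p : K) * dL p v (Pi.single l 1) (T + 1) =
      (if (l : ℕ) ≤ T then L p (frob p v ((l : ℕ) + 1)) (T - (l : ℕ)) else 0) +
        ∑ i : Fin (d + 1), if (i : ℕ) ≤ T then
          cf p v l i * ((p : K) * dL p (frob p v ((i : ℕ) + 1)) (Pi.single l 1) (T - (i : ℕ)))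
        else 0 := by
  rw [dL_succ' hp]
  have hsingle : (∑ i : Fin (d + 1), if (i : ℕ) ≤ T then
      ext0 (Pi.single l (1 : K) : Fin d → K) i * L p (frob p v ((i : ℕ) + 1)) (T - (i : ℕ))
        else 0) =
      if (l : ℕ) ≤ T then L p (frob p v ((l : ℕ) + 1)) (T - (l : ℕ)) else 0 := by
    rw [Finset.sum_eq_single l.castSucc]
    · simp [ext0_castSucc]
    · intro i _ hi
      revert hi
      refine Fin.lastCases ?_ ?_ i
      · intro; simp [ext0_last]
      · intro j hj
        simp [ext0_castSucc, Pi.single_eq_of_ne (show j ≠ l from fun h => hj (h ▸ rfl))]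
    · simp
  rw [← hsingle, ← Finset.sum_add_distrib]
  refine Finset.sum_congr rfl fun i _ => ?_
  split_ifs with h
  · have hfun : (fun k => ((p ^ ((i : ℕ) + 1) : ℕ) : K) *
        v k ^ (p ^ ((i : ℕ) + 1) - 1) * (Pi.single l (1 : K) : Fin d → K) k) =
        Pi.single l (((p ^ ((i : ℕ) + 1) : ℕ) : K) * v l ^ (p ^ ((i : ℕ) + 1) - 1)) := by
      funext k
      by_cases hk : k = l
      · subst hk; simp
      · simp [hk]
    rw [hfun, dL_single hp, Nat.cast_pow, pow_succ, cf]
    ring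
  · simp

lemma smul_Dw_eq {v : Fin d → K} (hv : ‖v‖ < 1) (l : Fin d) :
    (p : K) • Dw p v (Pi.single l 1) = b p v ((l : ℕ) + 1) + ∑ i : Fin (d + 1),
      cf p v l i • (S p)^[(i : ℕ) + 1]
        ((p : K) • Dw p (frob p v ((i : ℕ) + 1)) (Pi.single l 1)) := by
  refine ((per_Dw hp hp1 hp2 hv _).smul (p : K)).unique (Per.congr'
    (X := sh^[(l : ℕ) + 1] (L p (frob p v ((l : ℕ) + 1))) +
      ∑ i : Fin (d + 1), cf p v l i •
        sh^[(i : ℕ) + 1] ((p : K) • dL p (frob p v ((i : ℕ) + 1)) (Pi.single l 1)))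
    (Per.add ((per_w hp hp1 hp2 ((norm_frob_le hp2 hv _).trans_lt hv)).shift_iterate _)
      (Per.sum fun i _ => (((per_Dw hp hp1 hp2 ((norm_frob_le hp2 hv _).trans_lt hv) _).smul
        _).shift_iterate _).smul _)) ?_)
  filter_upwards [eventually_ge_atTop 1] with M hM
  obtain ⟨T, rfl⟩ : ∃ T, M = T + 1 := ⟨M - 1, by omega⟩
  simp only [Pi.add_apply, Pi.smul_apply, smul_eq_mul, Finset.sum_apply, sh_iterate,
    Nat.add_sub_add_right, add_le_add_iff_right, mul_ite, mul_zero]
  exact (dL_rec hp v l T).symm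

lemma bddAbove_adjugate {u : Fin d → K} (hu : ‖u‖ < 1) :
    ∃ A : ℝ, ∀ N k i, ‖(B p (frob p u N)).adjugate k i‖ ≤ A := by
  have hadj : Tendsto (fun N => ∑ k : Fin (d + 1), ∑ i : Fin (d + 1),
      ‖(B p (frob p u N)).adjugate k i‖) atTop (𝓝 (∑ k : Fin (d + 1), ∑ i : Fin (d + 1),
      ‖(1 : Matrix (Fin (d + 1)) (Fin (d + 1)) K).adjugate k i‖)) := by
    refine tendsto_finsetSum _ fun k _ => tendsto_finsetSum _ fun i _ => Tendsto.norm ?_
    exact tendsto_pi_nhds.1 (tendsto_pi_nhds.1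
      (((continuous_id (X := Matrix (Fin (d + 1)) (Fin (d + 1)) K)).matrix_adjugate.tendsto 1).comp
        (tendsto_B hp hp1 hp2 hu)) k) i
  obtain ⟨A, hA⟩ := hadj.bddAbove_range
  refine ⟨A, fun N k i => le_trans ?_ (hA ⟨N, rfl⟩)⟩
  refine le_trans ?_ (Finset.single_le_sum (fun k' _ => by positivity) (Finset.mem_univ k))
  exact Finset.single_le_sum (f := fun i => ‖(B p (frob p u N)).adjugate k i‖)
    (fun _ _ => norm_nonneg _) (Finset.mem_univ i)

lemma coord_rec {u : Fin d → K} (hu : ‖u‖ < 1) (l : Fin d) (c : ℕ → Fin (d + 1) → K)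
    (hcB : ∀ N, (p : K) • Dw p (frob p u N) (Pi.single l 1) = c N ᵥ* B p (frob p u N))
    {s : ℝ} (hs : ∀ N, ‖c N‖ ≤ s) (N : ℕ) : ‖c N - Pi.single l.succ 1‖ ≤ ‖u‖ * s := by
  have hv : ‖frob p u N‖ < 1 := (norm_frob_le hp2 hu N).trans_lt hu
  choose y hy hyB using fun i : Fin (d + 1) =>
    exists_coord_shift hp hp1 hp2 (m := (i : ℕ) + 1) hv (c (N + ((i : ℕ) + 1)))
  have hc : c N = Pi.single l.succ 1 + ∑ i : Fin (d + 1), cf p (frob p u N) l i • y i := by
    refine vecMul_B_injective hp hp1 hp2 hv ?_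
    show c N ᵥ* B p (frob p u N) = _ ᵥ* B p (frob p u N)
    rw [← hcB, smul_Dw_eq hp hp1 hp2 hv, Matrix.add_vecMul, Matrix.sum_vecMul]
    refine congrArg₂ (· + ·) ?_ (Finset.sum_congr rfl fun i _ => ?_)
    · rw [Matrix.single_one_vecMul]; rfl
    · rw [Matrix.smul_vecMul, ← hyB, frob_frob, hcB]
  have hs0 : 0 ≤ s := (norm_nonneg _).trans (hs 0)
  rw [hc, add_sub_cancel_left]
  refine (pi_norm_le_iff_of_nonneg (by positivity)).2 fun k => ?_
  rw [Finset.sum_apply]
  refine IsUltrametricDist.norm_sum_le_of_forall_le_of_nonneg (by positivity) fun i _ => ?_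
  rw [Pi.smul_apply, smul_eq_mul, norm_mul]
  refine mul_le_mul ?_ (((norm_le_pi_norm _ k).trans (hy i)).trans (hs _)) (norm_nonneg _)
    (norm_nonneg _)
  rw [cf, norm_mul, norm_mul, norm_pow, norm_pow]
  refine (mul_le_of_le_one_left (by positivity) (norm_ext_le_one hv.le i)).trans ?_
  refine (mul_le_of_le_one_left (by positivity) (pow_le_one₀ (norm_nonneg _) hp1.le)).trans ?_
  have hvl : ‖frob p u N l‖ ≤ ‖u‖ := (norm_le_pi_norm _ l).trans (norm_frob_le hp2 hu N)
  refine (pow_le_of_le_one (norm_nonneg _) (hvl.trans hu.le) ?_).trans hvl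
  have : 2 ≤ p ^ ((i : ℕ) + 1) := le_trans hp2 (Nat.le_self_pow (by omega) p)
  omega

omit [IsUltrametricDist K] [CompleteSpace K] hp hp1 hp2 in
lemma norm_single_one_le {ι : Type*} [Fintype ι] [DecidableEq ι] (l : ι) :
    ‖(Pi.single l (1 : K) : ι → K)‖ ≤ 1 := by
  refine (pi_norm_le_iff_of_nonneg zero_le_one).2 fun k => ?_
  rw [Pi.single_apply]; split_ifs <;> simp

/-- The coordinates of `p ∂_l w` in the period rows. -/
lemma exists_coord_Dw {u : Fin d → K} (hu : ‖u‖ < 1) (l : Fin d) :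
    ∃ c : Fin (d + 1) → K, ‖c - Pi.single l.succ 1‖ ≤ ‖u‖ ∧
      (p : K) • Dw p u (Pi.single l 1) = c ᵥ* B p u := by
  obtain ⟨c, hc⟩ : ∃ c : ℕ → Fin (d + 1) → K, ∀ N, c N =
      ((p : K) • Dw p (frob p u N) (Pi.single l 1)) ᵥ* (B p (frob p u N)).adjugate :=
    ⟨_, fun _ => rfl⟩
  have hcB : ∀ N, (p : K) • Dw p (frob p u N) (Pi.single l 1) = c N ᵥ* B p (frob p u N) := by
    intro N
    rw [hc, Matrix.vecMul_vecMul, Matrix.adjugate_mul,
      det_B hp hp1 hp2 ((norm_frob_le (u := u) hp2 hu N).trans_lt hu), one_smul, Matrix.vecMul_one]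
  obtain ⟨C, hC1, hC⟩ := exists_w_bounds (K := K) (d := d) hp hp1 hp2 (norm_nonneg u) hu
  obtain ⟨A, hA⟩ := bddAbove_adjugate hp hp1 hp2 hu
  have hC0 : (0 : ℝ) ≤ C := zero_le_one.trans hC1
  have hA0 : 0 ≤ A := le_trans (norm_nonneg _) (hA 0 0 0)
  have hbdd : BddAbove (Set.range fun N => ‖c N‖) := by
    refine ⟨C * A, ?_⟩
    rintro _ ⟨N, rfl⟩
    refine (pi_norm_le_iff_of_nonneg (by positivity)).2 fun i => ?_
    rw [hc, show ∀ (x : Fin (d + 1) → K) (Q : Matrix (Fin (d + 1)) (Fin (d + 1)) K),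
      (x ᵥ* Q) i = ∑ k, x k * Q k i from fun _ _ => rfl]
    refine IsUltrametricDist.norm_sum_le_of_forall_le_of_nonneg (by positivity) fun k _ => ?_
    rw [norm_mul]
    refine mul_le_mul ((norm_le_pi_norm _ k).trans ?_) (hA N k i) (norm_nonneg _) hC0
    rw [norm_smul]
    refine (mul_le_of_le_one_left (norm_nonneg _) hp1.le).trans
      ((hC _ (norm_frob_le hp2 hu N) _).2.1.trans ?_)
    exact mul_le_of_le_one_right hC0 (norm_single_one_le l)
  have hs : ∀ N, ‖c N‖ ≤ ⨆ N, ‖c N‖ := fun N => le_ciSup hbdd N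
  have hs1 : (⨆ N, ‖c N‖) ≤ 1 := by
    by_contra hlt
    push Not at hlt
    have : (⨆ N, ‖c N‖) ≤ max 1 (‖u‖ * ⨆ N, ‖c N‖) := ciSup_le fun N => by
      rw [show c N = Pi.single l.succ 1 + (c N - Pi.single l.succ 1) by abel]
      exact (IsUltrametricDist.norm_add_le_max _ _).trans
        (max_le_max (norm_single_one_le _) (coord_rec hp hp1 hp2 hu l c hcB hs N))
    rcases le_max_iff.1 this with h | h <;> nlinarith
  refine ⟨c 0, ?_, by simpa [frob_zero_right] using hcB 0⟩
  exact (coord_rec hp hp1 hp2 hu l c hcB hs 0).trans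
    (mul_le_of_le_one_right (norm_nonneg _) hs1)

/-- `w` and its partial derivatives form a frame. -/
lemma frame {u : Fin d → K} (hu : ‖u‖ < 1) {a : K} {δ : Fin d → K}
    (h : a • w p u + Dw p u δ = 0) : a = 0 ∧ δ = 0 := by
  choose c hc hcB using exists_coord_Dw hp hp1 hp2 hu
  have hsum : ∀ s : Finset (Fin d), Dw p u (∑ l ∈ s, Pi.single l (δ l)) =
      ∑ l ∈ s, δ l • Dw p u (Pi.single l 1) := by
    intro s
    induction s using Finset.induction_on with
    | empty =>
      have h0 := Dw_add_smul hp hp1 hp2 hu 0 0 1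
      simp only [smul_zero, add_zero, one_smul] at h0
      simpa using h0
    | insert l s hl ih =>
      rw [Finset.sum_insert hl, Finset.sum_insert hl, ← ih, ← Dw_add_smul hp hp1 hp2 hu,
        ← Pi.single_smul', smul_eq_mul, mul_one]
  have hDδ : Dw p u δ = ∑ l, δ l • Dw p u (Pi.single l 1) := by
    rw [← hsum, Finset.univ_sum_single]
  set y : Fin (d + 1) → K := Fin.cons a (fun l => δ l / p) with hy
  set e : Fin (d + 1) → Fin (d + 1) → K :=
    Fin.cons (α := fun _ => Fin (d + 1) → K) (Pi.single 0 1) c with he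
  have h0 : (∑ k, y k • e k) ᵥ* B p u = 0 := by
    rw [Matrix.sum_vecMul, Fin.sum_univ_succ, ← h, hDδ]
    simp only [hy, he, Fin.cons_zero, Fin.cons_succ, Matrix.smul_vecMul, ← hcB,
      Matrix.single_one_vecMul, smul_smul, div_mul_cancel₀ _ hp]
    rw [show (B p u).row 0 = w p u from b_zero u]
  have h1 : ∑ k, y k • e k = 0 :=
    vecMul_B_injective hp hp1 hp2 hu (h0.trans (Matrix.zero_vecMul _).symm)
  have h2 : ∀ i, y i = -∑ k, y k * (e k i - if k = i then 1 else 0) := by
    intro i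
    have := congrFun h1 i
    simp only [Finset.sum_apply, Pi.smul_apply, smul_eq_mul, Pi.zero_apply] at this
    simp [mul_sub, Finset.sum_sub_distrib, this]
  have h3 : ‖y‖ ≤ ‖u‖ * ‖y‖ := by
    refine (pi_norm_le_iff_of_nonneg (by positivity)).2 fun i => ?_
    rw [h2 i, norm_neg]
    refine IsUltrametricDist.norm_sum_le_of_forall_le_of_nonneg (by positivity) fun k _ => ?_
    rw [norm_mul, mul_comm]
    refine mul_le_mul ?_ (norm_le_pi_norm y k) (norm_nonneg _) (norm_nonneg _)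
    refine Fin.cases ?_ ?_ k
    · simp [he, Pi.single_apply, eq_comm]
    · intro l
      refine le_trans (le_of_eq ?_) ((norm_le_pi_norm _ i).trans (hc l))
      simp [he, Pi.single_apply, eq_comm]
  have hy0 : y = 0 := norm_eq_zero.1 (le_antisymm (by nlinarith [norm_nonneg y]) (norm_nonneg y))
  refine ⟨by simpa [hy] using congrFun hy0 0, funext fun l => ?_⟩
  simpa [hy, hp] using congrFun hy0 l.succ

end Vale.Agent.P217.Generic
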