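import Mathlib
import Vale.Agent.P217.Generic.Est

/-!
P217, generic fibre: series with bounded coefficients on the open polydisc.
-/

namespace Vale.Agent.P217.Generic

open Filter Topology Finset

variable {K : Type*} [NormedField K] {d : ℕ}

/-- Monomial. -/
def mon (u : Fin d → K) (β : Fin d → ℕ) : K := ∏ i, u i ^ β i

/-- Value of a series at a point. -/
noncomputable def evK (g : (Fin d → ℕ) → K) (u : Fin d → K) : K := ∑' β, g β * mon u β

/-- The derivative `∂^β`. -/
def dser (β : Fin d → ℕ) (g : (Fin d → ℕ) → K) (γ : Fin d → ℕ) : K :=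
  (∏ i, ((γ i + β i).descFactorial (β i) : K)) * g (γ + β)

/-- The monomial of the `∂^β` of the monomial `α`. -/
def dmon (β : Fin d → ℕ) (u : Fin d → K) (α : Fin d → ℕ) : K :=
  ∏ i, ((α i).descFactorial (β i) : K) * u i ^ (α i - β i)

variable [IsUltrametricDist K]

lemma norm_dser_le {g : (Fin d → ℕ) → K} (hg : ∀ β, ‖g β‖ ≤ 1) (β γ : Fin d → ℕ) :
    ‖dser β g γ‖ ≤ 1 := by
  rw [dser, norm_mul, norm_prod]
  exact mul_le_one₀ (Finset.prod_le_one (fun i _ => norm_nonneg _)
    (fun i _ => IsUltrametricDist.norm_natCast_le_one K _)) (norm_nonneg _) (hg _)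

lemma norm_dmon_le {u : Fin d → K} {r : ℝ} (hr0 : 0 ≤ r) (hu : ‖u‖ ≤ r) (β α : Fin d → ℕ) :
    ‖dmon β u α‖ ≤ r ^ (∑ i, (α i - β i)) := by
  rw [dmon, norm_prod, ← Finset.prod_pow_eq_pow_sum]
  refine Finset.prod_le_prod (fun i _ => norm_nonneg _) fun i _ => ?_
  rw [norm_mul, norm_pow]
  exact (mul_le_of_le_one_left (by positivity) (IsUltrametricDist.norm_natCast_le_one K _)).trans
    (pow_le_pow_left₀ (norm_nonneg _) ((norm_le_pi_norm u i).trans hu) _)

omit [IsUltrametricDist K] in
lemma dmon_zero (u : Fin d → K) (α : Fin d → ℕ) : dmon 0 u α = mon u α := by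
  simp [dmon, mon]

variable [CompleteSpace K]

lemma summable_dmon {g : (Fin d → ℕ) → K} (hg : ∀ β, ‖g β‖ ≤ 1) {u : Fin d → K} (hu : ‖u‖ < 1)
    (β : Fin d → ℕ) : Summable fun α => g α * dmon β u α := by
  refine NonarchimedeanAddGroup.summable_of_tendsto_cofinite_zero ?_
  refine squeeze_zero_norm (a := fun α => ‖u‖ ^ (∑ i, (α i - β i))) (fun α => ?_) ?_
  · rw [norm_mul]
    exact (mul_le_of_le_one_left (norm_nonneg _) (hg α)).trans
      (norm_dmon_le (norm_nonneg u) le_rfl β α)
  · refine (tendsto_pow_atTop_nhds_zero_of_lt_one (norm_nonneg _) hu).comp ?_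
    refine tendsto_atTop.2 fun N => ?_
    rw [eventually_cofinite]
    refine (Set.Finite.pi (fun i : Fin d => Set.finite_Iic (N + β i))).subset ?_
    intro α hα i _
    simp only [Set.mem_ofPred_eq, not_le] at hα
    have := Finset.single_le_sum (f := fun i => α i - β i) (fun _ _ => Nat.zero_le _)
      (Finset.mem_univ i)
    simp only [Set.mem_Iic] at *
    omega

lemma norm_tsum_dmon_le {g : (Fin d → ℕ) → K} (hg : ∀ β, ‖g β‖ ≤ 1) {u : Fin d → K}
    (hu : ‖u‖ ≤ 1) (β : Fin d → ℕ) : ‖∑' α, g α * dmon β u α‖ ≤ 1 := by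
  refine IsUltrametricDist.norm_tsum_le_of_forall_le_of_nonneg zero_le_one fun α => ?_
  rw [norm_mul]
  refine mul_le_one₀ (hg α) (norm_nonneg _) ?_
  exact (norm_dmon_le zero_le_one hu β α).trans (le_of_eq (one_pow _))

omit [CompleteSpace K] [IsUltrametricDist K] in
lemma evK_dser (g : (Fin d → ℕ) → K) (β : Fin d → ℕ) (u : Fin d → K) :
    evK (dser β g) u = ∑' α, g α * dmon β u α := by
  rw [evK, ← (add_left_injective β).tsum_eq (f := fun α => g α * dmon β u α)]
  · refine tsum_congr fun γ => ?_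
    simp only [dser, dmon, mon, Pi.add_apply, Nat.add_sub_cancel, Finset.prod_mul_distrib]
    ring
  · intro α hα
    refine ⟨α - β, funext fun i => ?_⟩
    simp only [Function.mem_support, ne_eq, mul_eq_zero, not_or, dmon, Finset.prod_eq_zero_iff,
      Finset.mem_univ, true_and, not_exists] at hα
    have h : β i ≤ α i := by
      by_contra hlt
      have := (hα.2 i).1
      rw [Nat.descFactorial_eq_zero_iff_lt.2 (by omega)] at this
      simp at this
    simp only [Pi.add_apply, Pi.sub_apply]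
    omega

omit [CompleteSpace K] [IsUltrametricDist K] in
lemma dser_single (g : (Fin d → ℕ) → K) (β : Fin d → ℕ) (l : Fin d) :
    dser (Pi.single l 1) (dser β g) = dser (β + Pi.single l 1) g := by
  funext γ
  simp only [dser]
  rw [← mul_assoc, show γ + Pi.single l 1 + β = γ + (β + Pi.single l 1) by
    rw [add_assoc, add_comm β], ← Finset.prod_mul_distrib]
  congr 1
  refine Finset.prod_congr rfl fun i _ => ?_
  rw [← Nat.cast_mul]
  congr 1
  simp only [Pi.add_apply]
  by_cases h : i = l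
  · subst h
    rw [Pi.single_eq_same, Nat.descFactorial_one,
      show γ i + (β i + 1) = γ i + 1 + β i by ring, Nat.descFactorial_succ, Nat.add_sub_cancel]
  · simp [Pi.single_eq_of_ne h]

omit [CompleteSpace K] in
lemma norm_prod_sub_sub_le {ι : Type*} [DecidableEq ι] (s : Finset ι) (x y z : ι → K) {D : ℝ}
    (hD : 0 ≤ D) (hD1 : D ≤ 1) (hx : ∀ i ∈ s, ‖x i‖ ≤ 1) (hy : ∀ i ∈ s, ‖y i‖ ≤ 1)
    (hz : ∀ i ∈ s, ‖z i‖ ≤ D) (h : ∀ i ∈ s, ‖y i - x i - z i‖ ≤ D ^ 2) :
    ‖∏ i ∈ s, y i - ∏ i ∈ s, x i - ∑ l ∈ s, z l * ∏ i ∈ s.erase l, x i‖ ≤ D ^ 2 ∧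
      ‖∑ l ∈ s, z l * ∏ i ∈ s.erase l, x i‖ ≤ D := by
  have hX : ∀ t ⊆ s, ‖∏ i ∈ t, x i‖ ≤ 1 := fun t ht => by
    rw [norm_prod]; exact Finset.prod_le_one (fun i _ => norm_nonneg _) fun i hi => hx i (ht hi)
  have hsum : ∀ t ⊆ s, ‖∑ l ∈ t, z l * ∏ i ∈ t.erase l, x i‖ ≤ D := fun t ht => by
    refine IsUltrametricDist.norm_sum_le_of_forall_le_of_nonneg hD fun l hl => ?_
    rw [norm_mul]
    exact (mul_le_of_le_one_right (norm_nonneg _)
      (hX _ ((Finset.erase_subset _ _).trans ht))).trans (hz l (ht hl))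
  refine ⟨?_, hsum s subset_rfl⟩
  suffices ∀ t ⊆ s, ‖∏ i ∈ t, y i - ∏ i ∈ t, x i - ∑ l ∈ t, z l * ∏ i ∈ t.erase l, x i‖ ≤ D ^ 2
    from this s subset_rfl
  intro t
  induction t using Finset.induction_on with
  | empty => intro _; simp; positivity
  | insert a t ha ih =>
    intro hts
    have hts' : t ⊆ s := (Finset.subset_insert a t).trans hts
    have has : a ∈ s := hts (Finset.mem_insert_self a t)
    have he : ∑ l ∈ t, z l * ∏ i ∈ (insert a t).erase l, x i =
        x a * ∑ l ∈ t, z l * ∏ i ∈ t.erase l, x i := by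
      rw [Finset.mul_sum]
      refine Finset.sum_congr rfl fun l hl => ?_
      rw [Finset.erase_insert_of_ne (fun h : a = l => ha (h ▸ hl)),
        Finset.prod_insert (fun h => ha (Finset.mem_of_mem_erase h))]
      ring
    rw [Finset.prod_insert ha, Finset.prod_insert ha, Finset.sum_insert ha,
      Finset.erase_insert ha, he]
    set Y := ∏ i ∈ t, y i
    set X := ∏ i ∈ t, x i
    set Z := ∑ l ∈ t, z l * ∏ i ∈ t.erase l, x i
    have hY : ‖Y‖ ≤ 1 := by
      rw [norm_prod]; exact Finset.prod_le_one (fun i _ => norm_nonneg _) fun i hi => hy i (hts' hi)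
    have hYX : ‖Y - X‖ ≤ D := by
      rw [show Y - X = (Y - X - Z) + Z by ring]
      refine (IsUltrametricDist.norm_add_le_max _ _).trans (max_le ((ih hts').trans ?_) (hsum t hts'))
      rw [sq]; exact mul_le_of_le_one_left hD hD1
    rw [show y a * Y - x a * X - (z a * X + x a * Z) =
      (y a - x a - z a) * Y + (z a * (Y - X) + x a * (Y - X - Z)) by ring]
    refine (IsUltrametricDist.norm_add_le_max _ _).trans (max_le ?_
      ((IsUltrametricDist.norm_add_le_max _ _).trans (max_le ?_ ?_)))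
    · rw [norm_mul]; exact (mul_le_of_le_one_right (norm_nonneg _) hY).trans (h a has)
    · rw [norm_mul, sq]; exact mul_le_mul (hz a has) hYX (norm_nonneg _) hD
    · rw [norm_mul]; exact (mul_le_of_le_one_left (norm_nonneg _) (hx a has)).trans (ih hts')

/-- First order expansion of a series. -/
lemma norm_evK_sub_sub_le {g : (Fin d → ℕ) → K} (hg : ∀ β, ‖g β‖ ≤ 1) {u δ : Fin d → K}
    (hu : ‖u‖ < 1) (hδ : ‖δ‖ < 1) :
    ‖evK g (u + δ) - evK g u - ∑ l, δ l * evK (dser (Pi.single l 1) g) u‖ ≤ ‖δ‖ ^ 2 := by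
  classical
  have huδ : ‖u + δ‖ < 1 := by
    refine (pi_norm_lt_iff zero_lt_one).2 fun i => ?_
    exact (IsUltrametricDist.norm_add_le_max _ _).trans_lt
      (max_lt ((norm_le_pi_norm u i).trans_lt hu) ((norm_le_pi_norm δ i).trans_lt hδ))
  have hs : ∀ v : Fin d → K, ‖v‖ < 1 → Summable fun α => g α * mon v α := fun v hv => by
    simpa [dmon_zero] using summable_dmon hg hv 0
  simp only [evK_dser, ← tsum_mul_left]
  rw [evK, evK, ← Summable.tsum_sub (hs _ huδ) (hs _ hu),
    ← Summable.tsum_finsetSum (fun l _ => (summable_dmon hg hu _).mul_left _),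
    ← Summable.tsum_sub ((hs _ huδ).sub (hs _ hu))
      (summable_sum fun l _ => (summable_dmon hg hu _).mul_left _)]
  refine IsUltrametricDist.norm_tsum_le_of_forall_le_of_nonneg (by positivity) fun α => ?_
  have h := (norm_prod_sub_sub_le Finset.univ (fun i => u i ^ α i) (fun i => (u + δ) i ^ α i)
    (fun i => (α i : K) * u i ^ (α i - 1) * δ i) (norm_nonneg δ) hδ.le
    (fun i _ => by
      rw [norm_pow]
      exact pow_le_one₀ (norm_nonneg _) ((norm_le_pi_norm u i).trans hu.le))
    (fun i _ => by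
      rw [norm_pow]
      exact pow_le_one₀ (norm_nonneg _) ((norm_le_pi_norm (u + δ) i).trans huδ.le))
    (fun i _ => by
      rw [norm_mul, norm_mul, norm_pow]
      refine (mul_le_of_le_one_left (norm_nonneg _) (mul_le_one₀
        (IsUltrametricDist.norm_natCast_le_one K _) (by positivity) (pow_le_one₀ (norm_nonneg _)
          ((norm_le_pi_norm u i).trans hu.le)))).trans (norm_le_pi_norm δ i))
    (fun i _ => by
      have := norm_add_pow_sub_sub_le (a := u i) (e := δ i)
        ((norm_le_pi_norm u i).trans hu.le) ((norm_le_pi_norm δ i).trans hδ.le) (α i)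
      exact this.trans (pow_le_pow_left₀ (norm_nonneg _) (norm_le_pi_norm δ i) 2))).1
  have hd : ∀ l, δ l * (g α * dmon (Pi.single l 1) u α) =
      g α * ((α l : K) * u l ^ (α l - 1) * δ l * ∏ i ∈ Finset.univ.erase l, u i ^ α i) := by
    intro l
    rw [dmon, ← Finset.mul_prod_erase _ _ (Finset.mem_univ l)]
    simp only [Pi.single_eq_same, Nat.descFactorial_one]
    rw [Finset.prod_congr (g := fun i => u i ^ α i) rfl (fun i hi => by
      rw [Pi.single_eq_of_ne (Finset.ne_of_mem_erase hi)]; simp)]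
    ring
  simp only [hd, ← Finset.mul_sum]
  rw [show ∀ a b c e : K, a * b - a * c - a * e = a * (b - c - e) from fun a b c e => by ring,
    norm_mul]
  exact (mul_le_of_le_one_left (norm_nonneg _) (hg α)).trans h

/-- A series all of whose derivatives vanish at a point has vanishing constant term. -/
lemma eq_zero_of_dser_vanish {g : (Fin d → ℕ) → K} (hg : ∀ β, ‖g β‖ ≤ 1) {u : Fin d → K}
    (hu : ‖u‖ < 1) [CharZero K] (h : ∀ β, evK (dser β g) u = 0) : g 0 = 0 := by
  classical
  have key : ∀ N : ℕ, ‖g 0‖ ≤ ‖u‖ ^ N := by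
    intro N
    set Box := Fintype.piFinset fun _ : Fin d => Finset.range (N + 1)
    set cc : (Fin d → ℕ) → K := fun β => ∏ i, (-u i) ^ β i / ((β i).factorial : K)
    have h0 : ∑ β ∈ Box, cc β * ∑' α, g α * dmon β u α = 0 :=
      Finset.sum_eq_zero fun β _ => by rw [← evK_dser, h, mul_zero]
    simp only [← tsum_mul_left] at h0
    rw [← Summable.tsum_finsetSum (fun β _ => (summable_dmon hg hu _).mul_left _)] at h0
    have hterm : ∀ α, ∑ β ∈ Box, cc β * (g α * dmon β u α) =
        g α * ∏ i, ∑ b ∈ Finset.range (N + 1),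
          ((α i).choose b : K) * ((-u i) ^ b * u i ^ (α i - b)) := by
      intro α
      rw [Finset.prod_univ_sum, Finset.mul_sum]
      refine Finset.sum_congr rfl fun β _ => ?_
      rw [mul_left_comm, dmon, ← Finset.prod_mul_distrib]
      congr 1
      refine Finset.prod_congr rfl fun i _ => ?_
      rw [Nat.descFactorial_eq_factorial_mul_choose, Nat.cast_mul]
      have hf : ((β i).factorial : K) ≠ 0 := Nat.cast_ne_zero.2 (Nat.factorial_ne_zero _)
      field_simp
    simp only [hterm] at h0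
    have hfull : ∀ (a : ℕ) (x : K), a ≤ N → ∑ b ∈ Finset.range (N + 1),
        (a.choose b : K) * ((-x) ^ b * x ^ (a - b)) = (0 : K) ^ a := by
      intro a x ha
      rw [← neg_add_cancel x, add_pow, ← Finset.sum_subset (Finset.range_mono (Nat.succ_le_succ ha))]
      · exact Finset.sum_congr rfl fun b _ => by ring
      · intro b _ hb
        rw [Nat.choose_eq_zero_of_lt (by simpa using hb)]; simp
    set G : (Fin d → ℕ) → K := fun α => g α * ∏ i, ∑ b ∈ Finset.range (N + 1),
      ((α i).choose b : K) * ((-u i) ^ b * u i ^ (α i - b))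
    have hG0 : G 0 = g 0 := by
      simp only [G, Pi.zero_apply, hfull 0 _ (Nat.zero_le _)]; simp
    have hbound : ∀ (a : ℕ) (x : K) (b : ℕ), ‖x‖ ≤ ‖u‖ →
        ‖(a.choose b : K) * ((-x) ^ b * x ^ (a - b))‖ ≤ ‖u‖ ^ a := by
      intro a x b hx
      by_cases hb : b ≤ a
      · rw [norm_mul, norm_mul, norm_pow, norm_pow, norm_neg, ← pow_add, Nat.add_sub_cancel' hb]
        exact (mul_le_of_le_one_left (by positivity)
          (IsUltrametricDist.norm_natCast_le_one K _)).trans
          (pow_le_pow_left₀ (norm_nonneg _) hx _)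
      · simp [Nat.choose_eq_zero_of_lt (not_le.1 hb)]
    have hGb : ∀ α, α ≠ 0 → ‖G α‖ ≤ ‖u‖ ^ N := by
      intro α hα
      by_cases hall : ∀ i, α i ≤ N
      · obtain ⟨i, hi⟩ : ∃ i, α i ≠ 0 := Function.ne_iff.1 hα
        have : G α = 0 := by
          refine mul_eq_zero_of_right _ (Finset.prod_eq_zero (Finset.mem_univ i) ?_)
          rw [hfull _ _ (hall i), zero_pow hi]
        rw [this, norm_zero]; positivity
      · push Not at hall
        obtain ⟨i, hi⟩ := hall
        simp only [G]
        rw [norm_mul, norm_prod, ← Finset.mul_prod_erase _ _ (Finset.mem_univ i)]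
        have hone : ∀ j, ‖∑ b ∈ Finset.range (N + 1),
            ((α j).choose b : K) * ((-u j) ^ b * u j ^ (α j - b))‖ ≤ ‖u‖ ^ α j := fun j =>
          IsUltrametricDist.norm_sum_le_of_forall_le_of_nonneg (by positivity) fun b _ =>
            hbound _ _ b (norm_le_pi_norm u j)
        refine (mul_le_of_le_one_left (by positivity) (hg α)).trans ?_
        refine (mul_le_of_le_one_right (norm_nonneg _) (Finset.prod_le_one (fun j _ => norm_nonneg _)
          fun j _ => (hone j).trans (pow_le_one₀ (norm_nonneg _) hu.le))).trans ?_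
        exact (hone i).trans (pow_le_pow_of_le_one (norm_nonneg _) hu.le hi.le)
    have hGs : Summable G := by
      have := summable_sum (s := Box) fun β _ => (summable_dmon hg hu β).mul_left (cc β)
      simpa only [hterm] using this
    rw [← hGs.sum_add_tsum_compl (s := {0}), Finset.sum_singleton, hG0] at h0
    rw [eq_neg_of_add_eq_zero_left h0, norm_neg]
    exact IsUltrametricDist.norm_tsum_le_of_forall_le_of_nonneg (by positivity) fun α =>
      hGb _ (by simpa using α.2)
  exact norm_eq_zero.1 (le_antisymm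
    (ge_of_tendsto' (tendsto_pow_atTop_nhds_zero_of_lt_one (norm_nonneg _) hu) key) (norm_nonneg _))

end Vale.Agent.P217.Generic
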