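import Mathlib
import Vale.Agent.P217.Generic.Frame
import Vale.Agent.P217.Generic.Series

/-!
P217, generic fibre: the orbit of a characteristic zero point is dense.
-/

namespace Vale.Agent.P217.Generic

open Filter Topology Finset

variable {p d : ℕ}

section

variable {K : Type*} [NormedField K]

lemma S_iterate_apply (l : ℕ) (hl : l ≤ d + 1) (v : Fin (d + 1) → K) (i : Fin (d + 1)) :
    (S p)^[l] v i = if h : (i : ℕ) < l then (p : K) * v ⟨d + 1 + (i : ℕ) - l, by omega⟩
      else v ⟨(i : ℕ) - l, by omega⟩ := by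
  induction l generalizing i with
  | zero => simp
  | succ l ih =>
    rw [Function.iterate_succ_apply']
    revert i
    intro i
    refine Fin.cases ?_ ?_ i
    · simp only [S, Fin.cons_zero]
      rw [ih (by omega), dif_neg (by simp; omega), dif_pos (by simp)]
      congr 2
      exact Fin.ext (by simp <;> omega)
    · intro j
      simp only [S, Fin.cons_succ]
      rw [ih (by omega)]
      by_cases h : (j : ℕ) < l
      · rw [dif_pos (by simpa using h), dif_pos (by simp; omega)]
        congr 2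
        exact Fin.ext (by simp <;> omega)
      · rw [dif_neg (by simpa using h), dif_neg (by simp; omega)]
        congr 1
        exact Fin.ext (by simp)

lemma S_iterate_period (v : Fin (d + 1) → K) : (S p)^[d + 1] v = (p : K) • v := by
  funext i
  rw [S_iterate_apply (d + 1) le_rfl, dif_pos i.2, Pi.smul_apply, smul_eq_mul]
  congr 2
  exact Fin.ext (by simp)

lemma S_iterate_mul (m k : ℕ) (v : Fin (d + 1) → K) :
    (S p)^[m * (d + 1) + k] v = ((p : K) ^ m) • (S p)^[k] v := by
  induction m with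
  | zero => simp
  | succ m ih =>
    rw [show (m + 1) * (d + 1) + k = (d + 1) + (m * (d + 1) + k) by ring,
      Function.iterate_add_apply, ih, S_iterate_smul, S_iterate_period, smul_smul, pow_succ,
      mul_comm]

lemma S_add (v v' : Fin (d + 1) → K) : S p (v + v') = S p v + S p v' := by
  funext i; refine Fin.cases ?_ ?_ i <;> simp [S, mul_add]

lemma S_iterate_add (m : ℕ) (v v' : Fin (d + 1) → K) :
    (S p)^[m] (v + v') = (S p)^[m] v + (S p)^[m] v' := by
  induction m with
  | zero => rfl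
  | succ m ih => simp only [Function.iterate_succ_apply', ih, S_add]

/-- The endomorphism attached to the digit `ω` in degree `k`. -/
def X (p k : ℕ) (ω : K) (v : Fin (d + 1) → K) : Fin (d + 1) → K :=
  (S p)^[k] fun i => ω ^ p ^ (i : ℕ) * v i

lemma X_sub (k : ℕ) (ω : K) (v v' : Fin (d + 1) → K) :
    X p k ω (v - v') = X p k ω v - X p k ω v' := by
  rw [eq_sub_iff_add_eq, X, X, X, ← S_iterate_add]
  congr 1
  funext i; simp only [Pi.sub_apply, Pi.add_apply]; ring

lemma norm_X_le [IsUltrametricDist K] {k : ℕ} (hk : k ≤ d + 1) {ω : K} (hω : ‖ω‖ ≤ 1)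
    (v : Fin (d + 1) → K) : ‖X p k ω v‖ ≤ ‖v‖ := by
  refine (pi_norm_le_iff_of_nonneg (norm_nonneg v)).2 fun i => ?_
  have h : ∀ j : Fin (d + 1), ‖ω ^ p ^ (j : ℕ) * v j‖ ≤ ‖v‖ := fun j => by
    rw [norm_mul, norm_pow]
    exact (mul_le_of_le_one_left (norm_nonneg _) (pow_le_one₀ (norm_nonneg _) hω)).trans
      (norm_le_pi_norm v j)
  rw [X, S_iterate_apply k hk]
  split_ifs with hi
  · rw [norm_mul]
    exact (mul_le_of_le_one_left (norm_nonneg _)
      (IsUltrametricDist.norm_natCast_le_one K p)).trans (h _)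
  · exact h _

end

variable {K : Type*} [NontriviallyNormedField K] [IsUltrametricDist K] [CompleteSpace K]

lemma norm_sub_le_max' (x y : K) : ‖x - y‖ ≤ max ‖x‖ ‖y‖ := by
  simpa [sub_eq_add_neg] using IsUltrametricDist.norm_add_le_max x (-y)

/-- The digit sequence of `γ = 1 + ω Π^k`. -/
def tau (ω : K) (k : ℕ) (j : ℕ) : K := if j = 0 then 1 else if j = k then ω else 0

/-- `u'` is a point into which a stabilizer element with digits `≡ tau` carries `u`. -/
def Link (p : ℕ) (u : Fin d → K) (τ : ℕ → K) (u' : Fin d → K) : Prop :=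
  ∃ t : ℕ → K, (∀ j, ‖t j‖ ≤ 1) ∧ (∀ j, ‖t j - τ j‖ < 1) ∧
    ∀ M, t 0 * L p u M = ∑ j ∈ Finset.range (M + 1), t j ^ p ^ (M - j) * L p u' (M - j)

variable (hp : (p : K) ≠ 0) (hp1 : ‖(p : K)‖ < 1) (hp2 : 2 ≤ p)
include hp hp1 hp2

/-- Equivariance of the periods. -/
lemma equivariance {u u' : Fin d → K} (hu : ‖u‖ < 1) (hu' : ‖u'‖ < 1) {ω : K} (hω1 : ‖ω‖ ≤ 1)
    (hω : ω ^ p ^ (d + 1) = ω) {k : ℕ} (hk : 0 < k) {t : ℕ → K} (ht : ∀ j, ‖t j‖ ≤ 1)
    (hτ : ∀ j, ‖t j - tau ω k j‖ < 1)
    (heq : ∀ M, t 0 * L p u M = ∑ j ∈ Finset.range (M + 1), t j ^ p ^ (M - j) * L p u' (M - j)) :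
    t 0 • w p u = w p u' + (S p)^[k] (fun i => ω ^ p ^ (i : ℕ) * w p u' i) := by
  obtain ⟨C, hC1, hC⟩ := exists_bounds (K := K) (d := d) hp hp1 hp2 (norm_nonneg u') hu'
  have hC0 : (0 : ℝ) ≤ C := zero_le_one.trans hC1
  set T : ℕ → ℕ → K := fun j M => t j ^ p ^ M * L p u' M with hT
  have hT' : ∀ (j : ℕ) (y : K), ‖y‖ ≤ 1 → y ^ p ^ (d + 1) = y → ‖t j - y‖ < 1 →
      Per p (T j) (fun i : Fin (d + 1) => y ^ p ^ (i : ℕ) * w p u' i) := by
    intro j y hy hper hclose i
    have h1 : ∀ J, y ^ p ^ ((d + 1) * J + (i : ℕ)) = y ^ p ^ (i : ℕ) := by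
      intro J
      induction J with
      | zero => simp
      | succ J ih =>
        rw [show (d + 1) * (J + 1) + (i : ℕ) = (d + 1) + ((d + 1) * J + (i : ℕ)) by ring, pow_add,
          pow_mul, hper, ih]
    have h2 : Tendsto (fun J => t j ^ p ^ ((d + 1) * J + (i : ℕ))) atTop (𝓝 (y ^ p ^ (i : ℕ))) := by
      have := (tendsto_pow_sub_pow hp1 hy hclose).comp (tendsto_atTop_mono
        (fun J => show J ≤ (d + 1) * J + (i : ℕ) by nlinarith) tendsto_id)
      simp only [Function.comp_def, h1] at this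
      simpa using this.add_const (y ^ p ^ (i : ℕ))
    simpa [hT, mul_left_comm] using h2.mul (per_w hp hp1 hp2 hu' i)
  have hT0 : Per p (T 0) (w p u') := by
    simpa using hT' 0 1 (by simp) (by simp) (by simpa [tau] using hτ 0)
  have hTk : Per p (T k) (fun i : Fin (d + 1) => ω ^ p ^ (i : ℕ) * w p u' i) :=
    hT' k ω hω1 hω (by simpa [tau, hk.ne'] using hτ k)
  have hTz : ∀ j, j ≠ 0 → j ≠ k → Per p (sh^[j] (T j)) (0 : Fin (d + 1) → K) := by
    intro j hj0 hjk
    have h := hT' j 0 (by simp) (zero_pow (pow_ne_zero _ (by omega : p ≠ 0)))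
      (by simpa [tau, hj0, hjk] using hτ j)
    have hz : (fun i : Fin (d + 1) => (0 : K) ^ p ^ (i : ℕ) * w p u' i) = 0 := by
      funext i; simp [zero_pow (pow_ne_zero (i : ℕ) (by omega : p ≠ 0))]
    rw [hz] at h
    have h2 := h.shift_iterate j
    have hz2 : (S p)^[j] (0 : Fin (d + 1) → K) = 0 := by
      simpa using S_iterate_smul (p := p) j (0 : K) (0 : Fin (d + 1) → K)
    rwa [hz2] at h2
  refine ((per_w hp hp1 hp2 hu).smul (t 0)).unique (Per.congr'
    (X := T 0 + sh^[k] (T k) + (fun M => ∑ j ∈ (Finset.range (M + 1)).filter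
      (fun j => j ≠ 0 ∧ j ≠ k), T j (M - j))) ?_ ?_)
  · rw [← add_zero (w p u' + _)]
    refine (hT0.add (hTk.shift_iterate k)).add fun i => ?_
    simp only [Pi.zero_apply]
    rw [Metric.tendsto_atTop]
    intro η hη
    obtain ⟨c, hc⟩ := exists_pow_lt_of_lt_one (div_pos hη (zero_lt_one.trans_le hC1)) hp1
    set K₀ := (d + 1) * (c + 1) with hK₀
    have hsmall : ∀ᶠ J in atTop, ∀ j ∈ (Finset.range (K₀ + 1)).filter (fun j => j ≠ 0 ∧ j ≠ k),
        ‖(p : K) ^ J * sh^[j] (T j) ((d + 1) * J + (i : ℕ))‖ < η := by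
      rw [eventually_all_finset]
      intro j hj
      simp only [Finset.mem_filter] at hj
      have h3 := Metric.tendsto_atTop.1 (hTz j hj.2.1 hj.2.2 i) η hη
      obtain ⟨N, hN⟩ := h3
      filter_upwards [eventually_ge_atTop N] with J hJ
      simpa using hN J hJ
    obtain ⟨N, hN⟩ := eventually_atTop.1 hsmall
    refine ⟨max N c, fun J hJ => ?_⟩
    rw [dist_zero_right, Finset.mul_sum]
    set M := (d + 1) * J + (i : ℕ) with hM
    obtain ⟨j, hj0, hjmem, hjle⟩ : ∃ e, 0 ≤ e ∧ e < η ∧ ∀ j ∈ (Finset.range (M + 1)).filter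
        (fun j => j ≠ 0 ∧ j ≠ k), ‖(p : K) ^ J * T j (M - j)‖ ≤ e := by
      rcases ((Finset.range (M + 1)).filter (fun j => j ≠ 0 ∧ j ≠ k)).eq_empty_or_nonempty with
        h | h
      · exact ⟨0, le_rfl, hη, by simp [h]⟩
      obtain ⟨j₁, hj₁, hmax⟩ := Finset.exists_max_image _
        (fun j => ‖(p : K) ^ J * T j (M - j)‖) h
      refine ⟨_, norm_nonneg _, ?_, hmax⟩
      simp only [Finset.mem_filter, Finset.mem_range] at hj₁
      by_cases hjK : j₁ ≤ K₀
      · have := hN J (le_trans (le_max_left _ _) hJ) j₁ (by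
          simp only [Finset.mem_filter, Finset.mem_range]; exact ⟨by omega, hj₁.2⟩)
        rwa [sh_iterate, if_pos (by omega : j₁ ≤ (d + 1) * J + (i : ℕ))] at this
      · set e := (M - j₁) / (d + 1) with he
        have he' : e + c ≤ J := by
          have hJc : c ≤ J := le_trans (le_max_right _ _) hJ
          suffices e ≤ J - c by omega
          rw [he, Nat.div_le_iff_le_mul_add_pred d.succ_pos]
          have hi := i.2
          have h4 : (d + 1) * (c + 1) < j₁ := not_le.1 hjK
          have h5 : (d + 1) * (J - c) + (d + 1) * c = (d + 1) * J := by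
            rw [← Nat.mul_add]; congr 1; omega
          have h6 : (d + 1) * (c + 1) = (d + 1) * c + (d + 1) := by ring
          simp only [Nat.succ_eq_add_one, Nat.add_sub_cancel]
          omega
        calc ‖(p : K) ^ J * T j₁ (M - j₁)‖ ≤ ‖(p : K)‖ ^ J * ‖L p u' (M - j₁)‖ := by
              simp only [hT]
              rw [norm_mul, norm_pow, norm_mul, norm_pow]
              refine mul_le_mul_of_nonneg_left ?_ (by positivity)
              exact mul_le_of_le_one_left (norm_nonneg _) (pow_le_one₀ (norm_nonneg _) (ht _))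
          _ = ‖(p : K)‖ ^ (J - e) * (‖(p : K)‖ ^ e * ‖L p u' (M - j₁)‖) := by
              rw [← mul_assoc, ← pow_add]; congr 2; omega
          _ ≤ ‖(p : K)‖ ^ c * C := mul_le_mul (pow_le_pow_of_le_one (norm_nonneg _) hp1.le
              (by omega)) (hC u' le_rfl 0 _).1 (by positivity) (by positivity)
          _ < η := by rw [lt_div_iff₀ (zero_lt_one.trans_le hC1)] at hc; exact hc
    refine lt_of_le_of_lt ?_ hjmem
    exact IsUltrametricDist.norm_sum_le_of_forall_le_of_nonneg hj0 hjle
  · refine Eventually.of_forall fun M => ?_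
    simp only [Pi.add_apply, Pi.smul_apply, smul_eq_mul, heq]
    have hsplit : ∀ j, T j (M - j) = (if j = 0 then T j (M - j) else 0) +
        (if j = k then T j (M - j) else 0) + (if j ≠ 0 ∧ j ≠ k then T j (M - j) else 0) := by
      intro j
      by_cases h0 : j = 0
      · subst h0; simp [hk.ne]
      · by_cases hjk : j = k
        · subst hjk; simp [h0]
        · simp [h0, hjk]
    rw [Finset.sum_filter, show (∑ j ∈ Finset.range (M + 1), t j ^ p ^ (M - j) * L p u' (M - j)) =
      ∑ j ∈ Finset.range (M + 1), T j (M - j) from rfl,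
      Finset.sum_congr rfl (fun j _ => hsplit j), Finset.sum_add_distrib, Finset.sum_add_distrib,
      Finset.sum_ite_eq', Finset.sum_ite_eq', sh_iterate]
    simp

/-- All derivatives of a series vanishing on an invariant set vanish there. -/
lemma dser_single_eq_zero [CharZero K] {U : Set (Fin d → K)} (hU : ∀ u ∈ U, ‖u‖ < 1) {ω : K}
    (hω : ω ^ p ^ (d + 1) = ω) (hω1 : ‖ω‖ ≤ 1)
    (hωi : Function.Injective fun i : Fin (d + 1) => ω ^ p ^ (i : ℕ))
    (hlink : ∀ u ∈ U, ∀ k ≤ d, ∀ e ≤ d, ∀ ε > (0 : ℝ), ∀ᶠ m : ℕ in atTop,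
      ∃ u' ∈ U, ‖u' - u‖ < ε ∧ Link p u (tau (ω ^ e) (m * (d + 1) + k)) u')
    {g : (Fin d → ℕ) → K} (hg : ∀ β, ‖g β‖ ≤ 1) (hgU : ∀ u ∈ U, evK g u = 0)
    {u : Fin d → K} (hu : u ∈ U) (l : Fin d) : evK (dser (Pi.single l 1) g) u = 0 := by
  classical
  have hu1 := hU u hu
  set pd : Fin d → K := fun i => evK (dser (Pi.single i 1) g) u with hpd
  -- the frame
  let Φ : (Fin (d + 1) → K) →ₗ[K] (Fin (d + 1) → K) :=
    { toFun := fun x => x 0 • w p u + Dw p u (Fin.tail x)
      map_add' := fun x y => by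
        have h := Dw_add_smul hp hp1 hp2 hu1 (Fin.tail x) (Fin.tail y) 1
        simp only [one_smul] at h
        rw [show Fin.tail (x + y) = Fin.tail x + Fin.tail y from rfl, h, Pi.add_apply, add_smul]
        abel
      map_smul' := fun c x => by
        have h := Dw_add_smul hp hp1 hp2 hu1 (Fin.tail x) 0 c
        have h0 := Dw_add_smul hp hp1 hp2 hu1 0 0 1
        simp only [smul_zero, add_zero, one_smul] at h0
        have h0' : Dw p u (0 : Fin d → K) = 0 := by
          simpa using h0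
        rw [add_zero, h0', add_zero] at h
        simp only [RingHom.id_apply, smul_add, Pi.smul_apply, smul_eq_mul, mul_smul]
        rw [show Fin.tail (c • x) = c • Fin.tail x from rfl, h] }
  have hΦi : Function.Injective Φ := by
    refine (injective_iff_map_eq_zero Φ).2 fun x hx => ?_
    obtain ⟨h1, h2⟩ := frame hp hp1 hp2 hu1 (a := x 0) (δ := Fin.tail x) hx
    funext i
    exact Fin.cases h1 (fun j => congrFun h2 j) i
  let e := LinearEquiv.ofInjectiveEndo Φ hΦi
  let ψ : (Fin (d + 1) → K) →ₗ[K] K :=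
    ∑ i : Fin d, pd i • ((LinearMap.proj i.succ : (Fin (d + 1) → K) →ₗ[K] K) ∘ₗ e.symm.toLinearMap)
  have hψ : ∀ v, ψ v = ∑ i, pd i * e.symm v i.succ := fun v => by simp [ψ]
  obtain ⟨Λ, hΛ0, hΛ⟩ : ∃ Λ > (0 : ℝ), ∀ v, ‖e.symm v‖ ≤ Λ * ‖v‖ := by
    let E := LinearMap.toContinuousLinearMap (e.symm.toLinearMap : _ →ₗ[K] _)
    exact ⟨‖E‖ + 1, by positivity, fun v => (E.le_opNorm v).trans
      (mul_le_mul_of_nonneg_right (by linarith) (norm_nonneg _))⟩
  have hψw : ψ (w p u) = 0 := by
    have : e.symm (w p u) = Pi.single 0 1 := by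
      rw [LinearEquiv.symm_apply_eq, LinearEquiv.coe_ofInjectiveEndo]
      show w p u = (Pi.single 0 (1 : K) : Fin (d + 1) → K) 0 • w p u + _
      have h0 := Dw_add_smul hp hp1 hp2 hu1 0 0 1
      simp only [smul_zero, add_zero, one_smul] at h0
      have ht : Fin.tail (Pi.single 0 (1 : K) : Fin (d + 1) → K) = 0 := by
        funext i; simp [Fin.tail, Fin.succ_ne_zero]
      rw [ht, show Dw p u (0 : Fin d → K) = 0 by simpa using h0]
      simp
    rw [hψ, this]
    simp [Fin.succ_ne_zero]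
  obtain ⟨C, hC1, hC⟩ := exists_w_bounds (K := K) (d := d) hp hp1 hp2
    (le_max_of_le_left (norm_nonneg u) : (0 : ℝ) ≤ max ‖u‖ (1 / 2)) (max_lt hu1 (by norm_num))
  have hC0 : (0 : ℝ) < C := zero_lt_one.trans_le hC1
  -- the tangency
  have htan : ∀ k ≤ d, ∀ e' ≤ d, ψ (X p k (ω ^ e') (w p u)) = 0 := by
    intro k hk e' he'
    set ε : ℝ := min (1 / (2 * Λ * C)) (1 / 2)
    have hε : 0 < ε := lt_min (by positivity) (by norm_num)
    obtain ⟨m₀, hm₀⟩ := eventually_atTop.1 (hlink u hu k hk e' he' ε hε)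
    have hω' : (ω ^ e') ^ p ^ (d + 1) = ω ^ e' := by rw [← pow_mul, mul_comm, pow_mul, hω]
    have hωe : ‖ω ^ e'‖ ≤ 1 := by rw [norm_pow]; exact pow_le_one₀ (norm_nonneg _) hω1
    have key : ∀ m, m₀ + 1 ≤ m → ‖ψ (X p k (ω ^ e') (w p u))‖ ≤
        max (max ((Λ * C) ^ 2) (Λ * (C * (Λ * C) ^ 2))) (Λ * (C * (Λ * C))) * ‖(p : K)‖ ^ m := by
      intro m hm
      obtain ⟨u', hu'U, hδε, t, ht, hτ, heq⟩ := hm₀ m (by omega)
      have hpos : 0 < m * (d + 1) + k := by
        have : 1 ≤ m := by omega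
        nlinarith
      have heqv := equivariance hp hp1 hp2 hu1 (hU u' hu'U) hωe hω' hpos ht hτ heq
      rw [S_iterate_mul] at heqv
      set q := ‖(p : K)‖ ^ m with hq
      have hq0 : 0 < q := pow_pos (norm_pos_iff.2 hp) m
      set δ := u' - u with hδ
      have hδ2 : ‖δ‖ < 1 / (2 * Λ * C) := hδε.trans_le (min_le_left _ _)
      have hδh : ‖δ‖ ≤ max ‖u‖ (1 / 2) :=
        (hδε.le.trans (min_le_right _ _)).trans (le_max_right _ _)
      obtain ⟨hwu, -, hlin⟩ := hC u (le_max_left _ _) δ
      obtain ⟨hE, hLip⟩ := hlin hδh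
      have huu : u + δ = u' := add_sub_cancel u u'
      rw [huu] at hE hLip
      set err := w p u' - w p u - Dw p u δ
      set Xv := X p k (ω ^ e') (w p u') with hXv
      set x : Fin (d + 1) → K := Fin.cons (t 0 - 1) (-δ) with hx
      have hneg : Dw p u (-δ) = -Dw p u δ := by
        have h := Dw_add_smul hp hp1 hp2 hu1 δ (-δ) 1
        have h0 := Dw_add_smul hp hp1 hp2 hu1 0 0 1
        simp only [smul_zero, add_zero, one_smul] at h0
        rw [one_smul, one_smul, add_neg_cancel, show Dw p u (0 : Fin d → K) = 0 by simpa using h0]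
          at h
        exact eq_neg_of_add_eq_zero_right h.symm
      have hΦx : e x = err + (p : K) ^ m • Xv := by
        rw [LinearEquiv.coe_ofInjectiveEndo]
        show x 0 • w p u + Dw p u (Fin.tail x) = _
        simp only [hx, Fin.cons_zero, Fin.tail_cons, sub_smul, one_smul, heqv, hneg, err, hXv, X]
        abel
      have hXb : ‖Xv‖ ≤ C := (norm_X_le (by omega) hωe _).trans
        (le_trans (le_of_eq (by rw [sub_add_cancel]))
          ((IsUltrametricDist.norm_add_le_max (w p u' - w p u) (w p u)).trans (max_le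
            (hLip.trans (mul_le_of_le_one_right hC0.le
              (hδh.trans (max_lt hu1 (by norm_num)).le))) hwu)))
      have hxb : ‖x‖ ≤ Λ * max (C * ‖δ‖ ^ 2) (q * C) := by
        rw [show x = e.symm (e x) from (e.symm_apply_apply x).symm, hΦx]
        refine (hΛ _).trans (mul_le_mul_of_nonneg_left ?_ hΛ0.le)
        refine (IsUltrametricDist.norm_add_le_max _ _).trans (max_le_max hE ?_)
        rw [norm_smul, norm_pow]
        exact mul_le_mul_of_nonneg_left hXb hq0.le
      have hδx : ‖δ‖ ≤ ‖x‖ := by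
        refine (pi_norm_le_iff_of_nonneg (norm_nonneg x)).2 fun i => ?_
        simpa [hx] using norm_le_pi_norm x i.succ
      have hδq : ‖δ‖ ≤ Λ * C * q := by
        have h := hδx.trans hxb
        rw [mul_max_of_nonneg _ _ hΛ0.le] at h
        rcases le_max_iff.1 h with h | h
        · have h2 : Λ * C * ‖δ‖ ≤ 1 / 2 := by
            rw [lt_div_iff₀ (by positivity)] at hδ2
            nlinarith
          have : ‖δ‖ ≤ 1 / 2 * ‖δ‖ := h.trans (by
            calc Λ * (C * ‖δ‖ ^ 2) = (Λ * C * ‖δ‖) * ‖δ‖ := by ring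
              _ ≤ _ := mul_le_mul_of_nonneg_right h2 (norm_nonneg _))
          have h3 : (0 : ℝ) ≤ Λ * C * q := by positivity
          nlinarith [norm_nonneg δ]
        · linarith [mul_comm q C]
      have hδ1 : ‖δ‖ < 1 := hδh.trans_lt (max_lt hu1 (by norm_num))
      have hG := norm_evK_sub_sub_le hg hu1 hδ1
      rw [huu, hgU u' hu'U, hgU u hu, sub_zero, zero_sub, norm_neg] at hG
      have hψe : ψ (e x) = -∑ i, δ i * pd i := by
        rw [hψ, e.symm_apply_apply, ← Finset.sum_neg_distrib]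
        exact Finset.sum_congr rfl fun i _ => by simp [hx]; ring
      have hpdb : ∀ i, ‖pd i‖ ≤ 1 := fun i => by
        simp only [hpd, evK_dser]; exact norm_tsum_dmon_le hg hu1.le _
      have hψb : ∀ v, ‖ψ v‖ ≤ Λ * ‖v‖ := fun v => by
        rw [hψ]
        refine IsUltrametricDist.norm_sum_le_of_forall_le_of_nonneg (by positivity) fun i _ => ?_
        rw [norm_mul]
        exact (mul_le_of_le_one_left (norm_nonneg _) (hpdb i)).trans
          ((norm_le_pi_norm _ _).trans (hΛ v))
      have hsplit : (p : K) ^ m * ψ (X p k (ω ^ e') (w p u)) =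
          ψ (e x) - ψ err - (p : K) ^ m * ψ (X p k (ω ^ e') (w p u' - w p u)) := by
        rw [hΦx, map_add, map_smul, X_sub, smul_eq_mul, hXv]; simp only [map_sub]; ring
      have hB : ‖(p : K) ^ m * ψ (X p k (ω ^ e') (w p u))‖ ≤
          max (max ((Λ * C) ^ 2) (Λ * (C * (Λ * C) ^ 2))) (Λ * (C * (Λ * C))) * q * q := by
        rw [hsplit]
        have hsq : ‖δ‖ ^ 2 ≤ (Λ * C) ^ 2 * (q * q) := by
          calc ‖δ‖ ^ 2 ≤ (Λ * C * q) ^ 2 := pow_le_pow_left₀ (norm_nonneg _) hδq 2
            _ = _ := by ring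
        rw [mul_assoc, max_mul_of_nonneg _ _ (by positivity : (0 : ℝ) ≤ q * q),
          max_mul_of_nonneg _ _ (by positivity : (0 : ℝ) ≤ q * q)]
        refine (norm_sub_le_max' _ _).trans (max_le_max
          ((norm_sub_le_max' _ _).trans (max_le_max ?_ ?_)) ?_)
        · rw [hψe, norm_neg]; exact hG.trans hsq
        · refine ((hψb _).trans (mul_le_mul_of_nonneg_left (hE.trans
            (mul_le_mul_of_nonneg_left hsq hC0.le)) hΛ0.le)).trans (le_of_eq ?_)
          ring
        · rw [norm_mul, norm_pow]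
          refine (mul_le_mul_of_nonneg_left ((hψb _).trans (mul_le_mul_of_nonneg_left
            ((norm_X_le (by omega) hωe _).trans (hLip.trans
              (mul_le_mul_of_nonneg_left hδq hC0.le))) hΛ0.le)) (by positivity)).trans
            (le_of_eq ?_)
          rw [hq]; ring
      rw [norm_mul, norm_pow, ← hq] at hB
      exact le_of_mul_le_mul_left (hB.trans (le_of_eq (by ring))) hq0
    refine norm_eq_zero.1 (le_antisymm ?_ (norm_nonneg _))
    refine ge_of_tendsto (f := fun m : ℕ => _ * ‖(p : K)‖ ^ m) ?_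
      (eventually_atTop.2 ⟨m₀ + 1, key⟩)
    simpa using (tendsto_pow_atTop_nhds_zero_of_lt_one (norm_nonneg _) hp1).const_mul _
  -- spanning
  have hw0 : ∃ i, w p u i ≠ 0 := by
    by_contra h
    push Not at h
    have h' : w p u = 0 := funext h
    have h0 := Dw_add_smul hp hp1 hp2 hu1 0 0 1
    simp only [smul_zero, add_zero, one_smul] at h0
    exact one_ne_zero (frame hp hp1 hp2 hu1 (a := (1 : K)) (δ := 0)
      (by rw [h', show Dw p u (0 : Fin d → K) = 0 by simpa using h0]; simp)).1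
  obtain ⟨i₀, hi₀⟩ := hw0
  have hker : ∀ k ≤ d, ψ ((S p)^[k] (Pi.single i₀ 1)) = 0 := by
    intro k hk
    have hvan : ∀ e' : Fin (d + 1), ∑ i : Fin (d + 1),
        (w p u i * ψ ((S p)^[k] (Pi.single i 1))) * (ω ^ p ^ (i : ℕ)) ^ (e' : ℕ) = 0 := by
      intro e'
      rw [← htan k hk e' (Nat.lt_succ_iff.1 e'.2), X]
      have hpi : (fun i : Fin (d + 1) => (ω ^ (e' : ℕ)) ^ p ^ (i : ℕ) * w p u i) =
          ∑ i : Fin (d + 1), ((ω ^ (e' : ℕ)) ^ p ^ (i : ℕ) * w p u i) • Pi.single i (1 : K) := by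
        funext j; simp [Pi.single_apply]
      let Sk : (Fin (d + 1) → K) →ₗ[K] (Fin (d + 1) → K) :=
        { toFun := (S p)^[k]
          map_add' := S_iterate_add k
          map_smul' := S_iterate_smul k }
      rw [show (S p)^[k] (fun i : Fin (d + 1) => (ω ^ (e' : ℕ)) ^ p ^ (i : ℕ) * w p u i) =
        Sk _ from rfl, hpi, map_sum, map_sum]
      refine Finset.sum_congr rfl fun i _ => ?_
      rw [map_smul, map_smul, ← pow_mul, ← pow_mul, mul_comm (p ^ (i : ℕ))]
      simp [Sk]; ring
    have h := Matrix.eq_zero_of_forall_pow_sum_mul_pow_eq_zero hωi hvan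
    exact (mul_eq_zero.1 (congrFun h i₀)).resolve_left hi₀
  have hψ0 : ∀ i : Fin (d + 1), ψ (Pi.single i 1) = 0 := by
    intro i
    by_cases h : (i₀ : ℕ) ≤ i
    · have : (S p)^[(i : ℕ) - i₀] (Pi.single i₀ (1 : K)) = Pi.single i 1 := by
        funext j
        rw [S_iterate_apply _ (by omega)]
        split_ifs with hj
        · rw [Pi.single_apply, if_neg (by rw [Fin.ext_iff]; simp <;> omega), Pi.single_apply,
            if_neg (by rw [Fin.ext_iff]; omega), mul_zero]
        · by_cases hji : j = i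
          · subst hji
            rw [Pi.single_eq_same, show (⟨(j : ℕ) - ((j : ℕ) - i₀), by omega⟩ : Fin (d + 1)) = i₀
              from Fin.ext (by simp; omega), Pi.single_eq_same]
          · rw [Pi.single_eq_of_ne hji, Pi.single_eq_of_ne]
            rw [ne_eq, Fin.ext_iff]
            have : (j : ℕ) ≠ i := fun h' => hji (Fin.ext h')
            simp; omega
      rw [← this]; exact hker _ (by omega)
    · have : (S p)^[d + 1 + (i : ℕ) - i₀] (Pi.single i₀ (1 : K)) = (p : K) • Pi.single i 1 := by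
        funext j
        rw [S_iterate_apply _ (by omega), Pi.smul_apply, smul_eq_mul]
        split_ifs with hj
        · by_cases hji : j = i
          · subst hji
            rw [Pi.single_eq_same, show (⟨d + 1 + (j : ℕ) - (d + 1 + (j : ℕ) - i₀), by omega⟩ :
              Fin (d + 1)) = i₀ from Fin.ext (by simp; omega), Pi.single_eq_same]
          · rw [Pi.single_eq_of_ne hji, Pi.single_eq_of_ne]
            rw [ne_eq, Fin.ext_iff]
            have : (j : ℕ) ≠ i := fun h' => hji (Fin.ext h')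
            simp; omega
        · rw [Pi.single_apply, if_neg (by rw [Fin.ext_iff]; simp <;> omega), Pi.single_apply,
            if_neg (by rw [Fin.ext_iff]; omega), mul_zero]
      have h2 := hker _ (show d + 1 + (i : ℕ) - i₀ ≤ d by omega)
      rw [this, map_smul, smul_eq_zero] at h2
      exact h2.resolve_left hp
  have hψz : ψ = 0 := LinearMap.pi_ext' fun i => LinearMap.ext_ring (by simpa using hψ0 i)
  have := LinearMap.congr_fun hψz (e (Pi.single l.succ 1))
  rw [hψ, e.symm_apply_apply, LinearMap.zero_apply] at this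
  simpa [Pi.single_apply, Fin.succ_inj] using this

/-- Orbit density on the generic fibre: a series with bounded coefficients which vanishes on a
nonempty set of points stable under small elements of the stabilizer is zero. -/
theorem eq_zero_of_vanish [CharZero K] {U : Set (Fin d → K)} (hne : U.Nonempty)
    (hU : ∀ u ∈ U, ‖u‖ < 1) {ω : K} (hω : ω ^ p ^ (d + 1) = ω) (hω1 : ‖ω‖ ≤ 1)
    (hωi : Function.Injective fun i : Fin (d + 1) => ω ^ p ^ (i : ℕ))
    (hlink : ∀ u ∈ U, ∀ k ≤ d, ∀ e ≤ d, ∀ ε > (0 : ℝ), ∀ᶠ m : ℕ in atTop,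
      ∃ u' ∈ U, ‖u' - u‖ < ε ∧ Link p u (tau (ω ^ e) (m * (d + 1) + k)) u')
    {g : (Fin d → ℕ) → K} (hg : ∀ β, ‖g β‖ ≤ 1) (hgU : ∀ u ∈ U, evK g u = 0) : g = 0 := by
  have hall : ∀ (N : ℕ) (β : Fin d → ℕ), ∑ i, β i = N → ∀ u ∈ U, evK (dser β g) u = 0 := by
    intro N
    induction N with
    | zero =>
      intro β hβ u hu
      have hβ0 : β = 0 := funext fun i =>
        (Finset.sum_eq_zero_iff.1 hβ) i (Finset.mem_univ i)
      subst hβ0
      rw [evK_dser]
      simpa [dmon_zero, evK] using hgU u hu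
    | succ N ih =>
      intro β hβ u hu
      obtain ⟨l, hl⟩ : ∃ l, β l ≠ 0 := by
        by_contra h
        push Not at h
        simp [h] at hβ
      have hsplit : β - (Pi.single l 1 : Fin d → ℕ) + Pi.single l 1 = β := by
        funext i
        by_cases h : i = l
        · subst h; simp; omega
        · simp [h]
      have hN : ∑ i, (β - (Pi.single l 1 : Fin d → ℕ)) i = N := by
        have := congrArg (fun b => ∑ i, b i) hsplit
        simp only [Pi.add_apply, Finset.sum_add_distrib] at this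
        rw [Finset.sum_pi_single' l 1 Finset.univ, if_pos (Finset.mem_univ l), hβ] at this
        omega
      rw [← hsplit, ← dser_single]
      exact dser_single_eq_zero hp hp1 hp2 hU hω hω1 hωi hlink (norm_dser_le hg _)
        (ih _ hN) hu l
  obtain ⟨u, hu⟩ := hne
  funext β
  have h := eq_zero_of_dser_vanish (g := dser β g) (norm_dser_le hg β) (hU u hu) fun γ => ?_
  · simp only [dser, zero_add, Pi.zero_apply, mul_eq_zero] at h
    refine h.resolve_left (Finset.prod_ne_zero_iff.2 fun i _ => ?_)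
    exact Nat.cast_ne_zero.2 (by rw [Nat.descFactorial_self]; exact Nat.factorial_ne_zero _)
  · have hcomp : ∀ (c : Fin d → ℕ), ∃ a : Fin d → ℕ, ∀ γ, dser c (dser β g) γ =
        dser a g γ := fun c => ⟨β + c, fun γ' => by
      simp only [dser]
      rw [← mul_assoc, ← Finset.prod_mul_distrib, show γ' + c + β = γ' + (β + c) by
        rw [add_assoc, add_comm c]]
      congr 1
      refine Finset.prod_congr rfl fun i _ => ?_
      rw [← Nat.cast_mul]; congr 1
      simp only [Pi.add_apply]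
      rw [show γ' i + (β i + c i) = γ' i + c i + β i by ring,
        ← Nat.descFactorial_mul_descFactorial (n := γ' i + c i + β i)
          (Nat.le_add_right (β i) (c i)), Nat.add_sub_cancel, Nat.add_sub_cancel_left,
        Nat.mul_comm]⟩
    obtain ⟨a, ha⟩ := hcomp γ
    rw [funext ha]
    exact hall _ a rfl u hu

end Vale.Agent.P217.Generic
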